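import Vale.Agent.P005Z.Outer

/-!
P016, block PRIMES: definitions and statements.

`N` is the size parameter, `L = log N`.  The weight `ff` lives on the integers
`n = c * e * q₁ * q₂ + 1`, `n ≡ c u + 1 (mod c v)`, with `e = md t` a mark, `q₁` a prime in
`[N ^ η, N ^ (2 η))` and `q₂` a prime.
-/

open Finset Filter

namespace Vale.Agent.P016Z.Pr

open Vale.Agent.P005Z

/-- hypotheses on the class and on the exponent -/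
structure HC (c u v : ℕ) (η : ℝ) : Prop where
  hc : 0 < c
  even : Even c
  hv : 0 < v
  cop : u.Coprime v
  cop' : (c * u + 1).Coprime v
  pos : 0 < η
  le : η ≤ 1 / 100

/-- the primes `q₁` -/
noncomputable def Q1s (η : ℝ) (N : ℕ) : Finset ℕ := prm (pw N η) (pw N (2 * η))

/-- the weight of `y = c q₁ q₂` -/
noncomputable def gg (c : ℕ) (η : ℝ) (N y : ℕ) : ℝ :=
  ∑ q ∈ (Q1s η N).filter (fun q => c * q ∣ y ∧ (y / (c * q)).Prime),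
    Real.log ((y / (c * q) : ℕ) : ℝ) / Real.log N

/-- the weight of `n` -/
noncomputable def ff (c u v : ℕ) (η : ℝ) (r N n : ℕ) : ℝ :=
  if n % (c * v) = (c * u + 1) % (c * v) then
    ∑ t ∈ (MT r (ell N)).filter (fun t => md t ∣ n - 1), gg c η N ((n - 1) / md t)
  else 0

/-- `∑ 1 / q₁` -/
noncomputable def th1 (η : ℝ) (N : ℕ) : ℝ := ∑ q ∈ Q1s η N, 1 / (q : ℝ)

/-- the density of `ff` -/
noncomputable def DD (c v : ℕ) (η : ℝ) (r N : ℕ) : ℝ :=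
  VV r (ell N) * th1 η N / (c * Nat.totient v * Real.log N)

/-- the primes `< y` which do not divide `c v` -/
def PP (c v y : ℕ) : Finset ℕ := (prm 0 y).filter (fun p => ¬ p ∣ c * v)

/-- the ratio of the two sieve products -/
noncomputable def SS (c v y : ℕ) : ℝ :=
  (∏ p ∈ PP c v y, (1 - 1 / ((p : ℝ) - 1))) / ∏ p ∈ prm 0 y, (1 - 1 / (p : ℝ))

/-- the density of `ff` on the rough numbers -/
noncomputable def KK (c v : ℕ) (η : ℝ) (r N : ℕ) : ℝ :=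
  DD c v η r N * SS c v ⌈Real.log N⌉₊

/-- `θ(y; q, a)` -/
noncomputable def thAP (y q a : ℕ) : ℝ :=
  ∑ p ∈ (prm 0 (y + 1)).filter (fun p => p % q = a % q), Real.log p

/-- **Primes in progressions, logarithmic weight, power saving.** -/
def PTH : Prop := ∃ c : ℝ, 0 < c ∧ ∃ C : ℝ, 0 < C ∧ ∀ y q a : ℕ, 1 ≤ y → 1 ≤ q →
  Nat.Coprime a q →
    |thAP y q a - (y : ℝ) / (Nat.totient q : ℝ)| ≤ C * (y : ℝ) ^ (1 - c) * (1 + Real.log q) ^ 2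

/-- **Fundamental lemma**, upper and lower weights for a general density. -/
def FLG : Prop := ∃ b₀ : ℕ, ∀ b : ℕ, b₀ ≤ b → ∀ y : ℕ, 100 ≤ y → ∀ P : Finset ℕ, P ⊆ prm 0 y →
  ∀ g : ℕ → ℝ, (∀ p ∈ P, 0 ≤ g p ∧ g p ≤ 1 / 2 ∧ g p ≤ 2 / (p : ℝ)) →
  ∃ (D : Finset ℕ) (lu ll : ℕ → ℝ),
    (∀ d ∈ D, Squarefree d ∧ (d : ℝ) ≤ (y : ℝ) ^ (4 * b + 10) ∧ d.primeFactors ⊆ P ∧
      |lu d| ≤ 1 ∧ |ll d| ≤ y) ∧
    (∀ m : ℕ, ∑ d ∈ D.filter (fun d => d ∣ m), ll d ≤ (if ∀ p ∈ P, ¬ p ∣ m then (1 : ℝ) else 0) ∧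
      (if ∀ p ∈ P, ¬ p ∣ m then (1 : ℝ) else 0) ≤ ∑ d ∈ D.filter (fun d => d ∣ m), lu d) ∧
    ∑ d ∈ D, lu d * ∏ p ∈ d.primeFactors, g p ≤ (1 + Real.exp (-(b : ℝ))) * ∏ p ∈ P, (1 - g p) ∧
    (1 - Real.exp (-(b : ℝ))) * ∏ p ∈ P, (1 - g p) ≤ ∑ d ∈ D, ll d * ∏ p ∈ d.primeFactors, g p

/-- sizes -/
def SZ : Prop := ∀ (c u v : ℕ) (η : ℝ), HC c u v η → ∃ C : ℝ, 1 ≤ C ∧ ∀ r : ℕ,
  ∀ᶠ N : ℕ in atTop,
    (∀ y : ℕ, 1 ≤ y → y ≤ N ^ 2 → gg c η N y ≤ C) ∧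
    1 / 2 ≤ th1 η N ∧ th1 η N ≤ 1 ∧
    VV r (ell N) / Real.log N ≤ C * KK c v η r N ∧
    KK c v η r N ≤ C * (VV r (ell N) / Real.log N) ∧
    (∀ y y' : ℕ, ⌈Real.log N⌉₊ ≤ y → y ≤ y' →
      SS c v y' ≤ SS c v y ∧ (1 - 2 / (y : ℝ)) * SS c v y ≤ SS c v y')

/-- **Type I estimate** with a prime modulus up to `N ^ (1/2 - δ)` -/
def TI : Prop := ∀ (c u v : ℕ) (η : ℝ), HC c u v η → ∀ δ : ℝ, 0 < δ → ∀ r : ℕ,
  ∃ c₀ : ℝ, 0 < c₀ ∧ ∀ᶠ N : ℕ in atTop, ∀ (A w w' d : ℕ) (G : Finset ℕ), G ⊆ prm A (2 * A) →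
    (N : ℝ) ^ δ ≤ A → (A : ℝ) ≤ (N : ℝ) ^ (1 / 2 - δ) → 1 ≤ w → w ≤ w' → A * w' ≤ 2 * N →
    1 ≤ d → (d : ℝ) ≤ (N : ℝ) ^ c₀ → d.Coprime (c * v) →
    (∀ p : ℕ, p.Prime → p ∣ d → p < 2 ^ (2 * ell N ^ 2)) →
    |∑ p ∈ G, ∑ m ∈ (Ico w w').filter (fun m => d ∣ m), ff c u v η r N (p * m) -
        (G.card : ℝ) * (((w' : ℝ) - w) / (Nat.totient d : ℝ)) * DD c v η r N| ≤
      (N : ℝ) ^ (1 - c₀)

/-- one group of primes against one dyadic range of rough numbers -/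
def GRP : Prop := ∀ (c u v : ℕ) (η : ℝ), HC c u v η → ∀ δ : ℝ, 0 < δ → ∀ C : ℕ,
  ∃ r : ℕ, ∀ᶠ N : ℕ in atTop, ∀ (A B w y : ℕ) (G : Finset ℕ), G ⊆ prm A (2 * A) →
    (N : ℝ) ^ δ ≤ A → (A : ℝ) * (N : ℝ) ^ δ ≤ B → (A : ℝ) * B ≤ N → (N : ℝ) ^ δ ≤ y →
    w ≤ 2 * B →
    ∑ p ∈ G, ∑ m ∈ rgs y B w, ff c u v η r N (p * m) ≤
      (1 + 1 / Real.log N ^ 2) * KK c v η r N * ((G.card : ℝ) * ((rgs y B w).card : ℝ)) +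
        (N : ℝ) / Real.log N ^ C

/-- the Buchstab term of the prime `p` -/
noncomputable def Tp (c u v : ℕ) (η : ℝ) (r N p : ℕ) : ℝ :=
  ∑ m ∈ rgs p 2 (N / p + 1), ff c u v η r N (p * m)

/-- the Type II range of the Buchstab identity -/
def SUM : Prop := ∀ (c u v : ℕ) (η : ℝ), HC c u v η → ∀ ε₁ ε₂ ε : ℝ, 0 < ε₁ →
  0 < ε₂ → 0 < ε → ∃ r : ℕ, ∀ᶠ N : ℕ in atTop,
    ∑ p ∈ prm (pw N ε₁) (pw N (1 / 2 - ε₂)), Tp c u v η r N p ≤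
      KK c v η r N *
        ∑ p ∈ prm (pw N ε₁) (pw N (1 / 2 - ε₂)), ((rgs p 2 (N / p + 1)).card : ℝ) +
      ε * KK c v η r N * ((N : ℝ) / Real.log N)

/-- the discarded range of the Buchstab identity -/
def MID : Prop := ∀ (c u v : ℕ) (η : ℝ), HC c u v η → ∀ ε : ℝ, 0 < ε →
  ∃ ε₂ : ℝ, 0 < ε₂ ∧ ε₂ < 1 / 10 ∧ ∀ r : ℕ, ∀ᶠ N : ℕ in atTop,
    ∑ p ∈ prm (pw N (1 / 2 - ε₂)) (N + 1), Tp c u v η r N p ≤
      ε * KK c v η r N * ((N : ℝ) / Real.log N)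

/-- the sifted term of the Buchstab identity -/
def SIFT : Prop := ∀ (c u v : ℕ) (η : ℝ), HC c u v η → ∀ ε : ℝ, 0 < ε →
  ∃ ε₁ : ℝ, 0 < ε₁ ∧ ε₁ < 1 / 10 ∧ ∀ r : ℕ, ∀ᶠ N : ℕ in atTop,
    KK c v η r N * ((rgs (pw N ε₁) 2 (N + 1)).card : ℝ) -
        ε * KK c v η r N * ((N : ℝ) / Real.log N) ≤
      ∑ n ∈ rgs (pw N ε₁) 2 (N + 1), ff c u v η r N n

theorem gg_nonneg (c : ℕ) (η : ℝ) (N y : ℕ) : 0 ≤ gg c η N y :=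
  sum_nonneg fun _ _ => div_nonneg (Real.log_natCast_nonneg _) (Real.log_natCast_nonneg _)

theorem ff_nonneg (c u v : ℕ) (η : ℝ) (r N n : ℕ) : 0 ≤ ff c u v η r N n := by
  unfold ff
  split_ifs
  · exact sum_nonneg fun _ _ => gg_nonneg _ _ _ _
  · exact le_rfl

end Vale.Agent.P016Z.Pr
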