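import Vale.Agent.P005Z.Cnt
import Vale.Agent.P016Z.Pr.Defs
import Vale.Agent.P016Z.Iface

/-!
P016, block PRIMES: assembly of the three ranges of the Buchstab identity.
-/

open Finset Filter

namespace Vale.Agent.P016Z.Pr

open Vale.Agent.P005Z Vale.Agent.P005Z.Cnt

namespace PC

/-- the lower bound from the three ranges -/
theorem buch_low (f : ℕ → ℝ) (hf : ∀ n, 0 ≤ f n) {κ E1 E2 E3 : ℝ} (hκ : 0 ≤ κ) {z z2 N : ℕ}
    (hzz : z ≤ z2) (hz2N : z2 ≤ N + 1)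
    (hS : κ * ((rgs z 2 (N + 1)).card : ℝ) - E1 ≤ ∑ n ∈ rgs z 2 (N + 1), f n)
    (hU : ∑ p ∈ prm z z2, ∑ m ∈ rgs p 2 (N / p + 1), f (p * m) ≤
      κ * ∑ p ∈ prm z z2, ((rgs p 2 (N / p + 1)).card : ℝ) + E2)
    (hM : ∑ p ∈ prm z2 (N + 1), ∑ m ∈ rgs p 2 (N / p + 1), f (p * m) ≤ E3) :
    κ * ((Nat.primeCounting N : ℝ) - z) - (E1 + E2 + E3) ≤ ∑ p ∈ prm 0 (N + 1), f p := by
  have b1 := buchstab f z N
  have b2 := buchstab (fun _ => (1 : ℝ)) z N
  simp only [sum_const, nsmul_eq_mul, mul_one] at b2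
  rw [sum_prm_split (fun p => ∑ m ∈ rgs p 2 (N / p + 1), f (p * m)) hzz hz2N] at b1
  rw [sum_prm_split (fun p => ((rgs p 2 (N / p + 1)).card : ℝ)) hzz hz2N] at b2
  have b3 : 0 ≤ ∑ p ∈ prm z2 (N + 1), ((rgs p 2 (N / p + 1)).card : ℝ) :=
    sum_nonneg fun _ _ => Nat.cast_nonneg _
  have b4 := card_prm_ge (hzz.trans hz2N)
  have b5 : ∑ p ∈ prm z (N + 1), f p ≤ ∑ p ∈ prm 0 (N + 1), f p := by
    rw [sum_prm_split f (Nat.zero_le z) (hzz.trans hz2N)]
    have : 0 ≤ ∑ p ∈ prm 0 z, f p := sum_nonneg fun _ _ => hf _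
    linarith
  have c2 := mul_le_mul_of_nonneg_left b4 hκ
  have c3 := mul_nonneg hκ b3
  rw [b2, mul_add, mul_add] at hS
  linarith

theorem two_pow_omega {n : ℕ} (hn : n ≠ 0) : 2 ^ n.primeFactors.card ≤ n := by
  refine le_trans ?_ (Nat.le_of_dvd (Nat.pos_of_ne_zero hn) (Nat.prod_primeFactors_dvd n))
  exact pow_card_le_prod _ _ _ fun p hp => (Nat.prime_of_mem_primeFactors hp).two_le

theorem omega_le {n N : ℕ} (hn : n ≠ 0) (hN : n ≤ N) :
    (n.primeFactors.card : ℝ) ≤ 2 * Real.log N := by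
  have h1 : (2 : ℝ) ^ n.primeFactors.card ≤ N := by exact_mod_cast (two_pow_omega hn).trans hN
  have h2 := Real.log_le_log (by positivity) h1
  rw [Real.log_pow] at h2
  have h3 := Real.log_two_gt_d9
  have h4 : (0 : ℝ) ≤ n.primeFactors.card := Nat.cast_nonneg _
  nlinarith

theorem slot_dvd {r : ℕ} (t : ℕ × (Fin r → ℕ)) (c : Fin r) : t.2 c ∣ md t :=
  (dvd_prod_of_mem _ (mem_univ c)).mul_left _

theorem WW_le (r l : ℕ) {n : ℕ} (hn : n ≠ 0) : WW r l n ≤ n.primeFactors.card ^ (r + 1) := by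
  have h : (MT r l).filter (fun t => md t ∣ n) ⊆
      n.primeFactors ×ˢ Fintype.piFinset (fun _ : Fin r => n.primeFactors) := by
    intro t ht
    obtain ⟨h1, h2⟩ := mem_filter.1 ht
    obtain ⟨h3, h4⟩ := mem_product.1 h1
    refine mem_product.2 ⟨?_, Fintype.mem_piFinset.2 fun c => ?_⟩
    · exact Nat.mem_primeFactors.2 ⟨(mem_prm.1 h3).2.2, (Dvd.intro _ rfl).trans h2, hn⟩
    · exact Nat.mem_primeFactors.2 ⟨(mem_prm.1 (Fintype.mem_piFinset.1 h4 c)).2.2,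
        (slot_dvd t c).trans h2, hn⟩
  refine (card_le_card h).trans ?_
  rw [card_product, Fintype.card_piFinset]
  simp [pow_succ']

theorem md_pos {r l : ℕ} {t : ℕ × (Fin r → ℕ)} (ht : t ∈ MT r l) : 0 < md t := by
  obtain ⟨h1, h2⟩ := mem_product.1 ht
  exact Nat.mul_pos (mem_prm.1 h1).2.2.pos
    (prod_pos fun c _ => (mem_prm.1 (Fintype.mem_piFinset.1 h2 c)).2.2.pos)

/-- `ff n ≤ C * WW (n - 1)` -/
theorem ff_le {c u v : ℕ} {η C : ℝ} {r N n : ℕ} (hC : 0 ≤ C)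
    (hg : ∀ y : ℕ, 1 ≤ y → y ≤ N ^ 2 → gg c η N y ≤ C) (h2 : 2 ≤ n) (hn : n - 1 ≤ N ^ 2) :
    ff c u v η r N n ≤ C * (WW r (ell N) (n - 1) : ℝ) := by
  unfold ff WW
  split_ifs
  · refine (sum_le_card_nsmul _ _ C fun t ht => ?_).trans_eq (by rw [nsmul_eq_mul, mul_comm])
    obtain ⟨h3, h4⟩ := mem_filter.1 ht
    exact hg _ (Nat.div_pos (Nat.le_of_dvd (by omega) h4) (md_pos h3))
      ((Nat.div_le_self _ _).trans hn)
  · positivity

/-- the primes of a mark are large -/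
theorem prime_md {r l : ℕ} (hl : 1 ≤ l) {t : ℕ × (Fin r → ℕ)} (ht : t ∈ MT r l) {q : ℕ}
    (hq : q.Prime) (hd : q ∣ md t) : 2 ^ (2 * l ^ 2) ≤ q := by
  have key : ∀ i p, p ∈ band l i → q ∣ p → 2 ^ (2 * l ^ 2) ≤ q := by
    intro i p hp hqp
    obtain ⟨h1, _, h3⟩ := mem_prm.1 hp
    rw [(Nat.prime_dvd_prime_iff_eq hq h3).1 hqp]
    refine le_trans (Nat.pow_le_pow_right two_pos ?_) h1
    exact Nat.mul_le_mul_left _ (Nat.pow_le_pow_right hl (by omega))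
  obtain ⟨h1, h2⟩ := mem_product.1 ht
  rcases (Nat.Prime.dvd_mul hq).1 hd with h | h
  · exact key _ _ h1 h
  · obtain ⟨c, _, hc⟩ := (Prime.dvd_finsetProd_iff hq.prime _).1 h
    exact key _ _ (Fintype.mem_piFinset.1 h2 c) hc

theorem ev_ll {η : ℝ} (hη : 0 < η) : ∀ᶠ N : ℕ in atTop,
    1 ≤ Real.log (Real.log N) ∧ Real.log (Real.log N) ^ 2 ≤ η * Real.log N := by
  have hL : Tendsto (fun N : ℕ => Real.log N) atTop atTop :=
    Real.tendsto_log_atTop.comp tendsto_natCast_atTop_atTop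
  have h1 := hL.eventually ((Real.isLittleO_pow_log_id_atTop (n := 2)).bound hη)
  filter_upwards [h1, (Real.tendsto_log_atTop.comp hL).eventually_ge_atTop 1,
    hL.eventually_ge_atTop 0] with N h2 h3 h4
  refine ⟨h3, ?_⟩
  rw [Real.norm_of_nonneg (sq_nonneg _), id, Real.norm_of_nonneg h4] at h2
  exact h2

/-- the support of the weight on the primes -/
theorem nice_of {c u v : ℕ} {η η' : ℝ} {r N p : ℕ} (hc : 0 < c) (hη' : 0 < η')
    (h1 : η' ≤ 1 / 100) (h2 : 2 * η' ≤ η) (hN : 1 ≤ N)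
    (hl1 : 1 ≤ Real.log (Real.log N)) (hl2 : Real.log (Real.log N) ^ 2 ≤ η' * Real.log N)
    (hmd : ∀ t ∈ MT r (ell N), (md t : ℝ) ≤ (N : ℝ) ^ η') (hp : p.Prime)
    (hf : ff c u v η' r N p ≠ 0) : Nice c u v η N p := by
  have hN1 : (1 : ℝ) ≤ N := by exact_mod_cast hN
  unfold ff at hf
  split_ifs at hf with hm
  swap
  · exact absurd rfl hf
  obtain ⟨t, ht, hg⟩ := exists_ne_zero_of_sum_ne_zero hf
  obtain ⟨ht1, y, hy⟩ := mem_filter.1 ht
  have hpos := md_pos ht1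
  rw [hy, Nat.mul_div_cancel_left _ hpos] at hg
  obtain ⟨q, hq, _⟩ := exists_ne_zero_of_sum_ne_zero hg
  obtain ⟨hq1, ⟨Q, hQ⟩, hq3⟩ := mem_filter.1 hq
  obtain ⟨hq4, hq5, hq6⟩ := mem_prm.1 hq1
  rw [hQ, Nat.mul_div_cancel_left _ (Nat.mul_pos hc hq6.pos)] at hq3
  have hp2 := hp.two_le
  have he : p = c * (md t * q) * Q + 1 := by
    have : p - 1 = c * (md t * q) * Q := by rw [hy, hQ]; ring
    omega
  have hqu : (q : ℝ) ≤ (N : ℝ) ^ (2 * η') := (Nat.lt_ceil.1 hq5).le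
  have hql : (N : ℝ) ^ η' ≤ q := Nat.ceil_le.1 hq4
  refine ⟨hp, md t * q, Q, he, hq3, ?_, ?_, fun l hl hd => ?_⟩
  · push_cast
    calc (md t : ℝ) * q ≤ (N : ℝ) ^ η' * (N : ℝ) ^ (2 * η') :=
          mul_le_mul (hmd t ht1) hqu (Nat.cast_nonneg _) (by positivity)
      _ = (N : ℝ) ^ (η' + 2 * η') := (Real.rpow_add (by linarith) _ _).symm
      _ ≤ _ := Real.rpow_le_rpow_of_exponent_le hN1 (by linarith)
  · have h3 : c * (md t * q * Q) + 1 ≡ c * u + 1 [MOD c * v] := by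
      rw [← mul_assoc c, ← he]
      exact hm
    exact Nat.ModEq.mul_left_cancel' hc.ne' (Nat.ModEq.add_right_cancel' 1 h3)
  · rcases (Nat.Prime.dvd_mul hl).1 hd with h | h
    · have h4 : Real.log (Real.log N) ≤ ell N := Nat.le_ceil _
      have h5 : 1 ≤ ell N := by
        have : (1 : ℝ) ≤ ell N := hl1.trans h4
        exact_mod_cast this
      have h6 : ((2 : ℝ)) ^ (2 * ell N ^ 2) ≤ l := by exact_mod_cast prime_md h5 ht1 hl h
      have h7 := Real.log_le_log (by positivity) h6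
      rw [Real.log_pow] at h7
      push_cast at h7
      have h8 := Real.log_two_gt_d9
      have h9 : Real.log (Real.log N) ^ 2 ≤ (ell N : ℝ) ^ 2 := by gcongr
      have h10 : (0 : ℝ) ≤ (ell N : ℝ) ^ 2 := sq_nonneg _
      refine ⟨by nlinarith, ?_⟩
      have h11 : (l : ℝ) ≤ md t := by exact_mod_cast Nat.le_of_dvd hpos h
      exact h11.trans ((hmd t ht1).trans (Real.rpow_le_rpow_of_exponent_le hN1 (by linarith)))
    · rw [(Nat.prime_dvd_prime_iff_eq hl hq6).1 h]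
      refine ⟨hl2.trans ?_, hqu.trans (Real.rpow_le_rpow_of_exponent_le hN1 h2)⟩
      rw [← Real.log_rpow (by linarith)]
      exact Real.log_le_log (by positivity) hql

end PC

open PC in
theorem primes_of (h1 : SZ) (h2 : VVB) (h4 : SIFT) (h5 : SUM) (h6 : MID) :
    Vale.Agent.P016Z.PRIMES := by
  classical
  intro c u v hc hev hv hcop hcop' η hη
  obtain ⟨η', he0, he1, he2⟩ : ∃ η' : ℝ, 0 < η' ∧ η' ≤ 1 / 100 ∧ 2 * η' ≤ η :=
    ⟨min (η / 2) (1 / 100), lt_min (by linarith) (by norm_num), min_le_right _ _,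
      by linarith [min_le_left (η / 2) (1 / 100 : ℝ)]⟩
  have hb : HC c u v η' := ⟨hc, hev, hv, hcop, hcop', he0, he1⟩
  obtain ⟨C, hC1, hC⟩ := h1 c u v η' hb
  have hC0 : 0 < C := by linarith
  obtain ⟨ε₁, hε1, hε1', h4⟩ := h4 c u v η' hb (1 / 20) (by norm_num)
  obtain ⟨ε₂, hε2, hε2', h6⟩ := h6 c u v η' hb (1 / 20) (by norm_num)
  obtain ⟨r, h5⟩ := h5 c u v η' hb ε₁ ε₂ (1 / 20) hε1 hε2 (by norm_num)
  refine ⟨r + 4, ?_⟩
  have hL : Tendsto (fun N : ℕ => Real.log N) atTop atTop :=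
    Real.tendsto_log_atTop.comp tendsto_natCast_atTop_atTop
  filter_upwards [hC r, h2 r η' he0, h4 r, h5, h6 r, ev_pi,
    ev_pw (show ε₁ < 1 / 2 by linarith) (show (0 : ℝ) < 1 / 20 by norm_num), ev_ll he0,
    hL.eventually_ge_atTop (4 * C ^ 2 * 2 ^ (r + 1)), hL.eventually_gt_atTop 0,
    eventually_ge_atTop 1] with N hC hV hS hU hM hpi hz hll hLC hL0 hN
  obtain ⟨hg, _, _, hK, _⟩ := hC
  obtain ⟨hV1, _, _, _, hmd, _⟩ := hV
  have hzz : pw N ε₁ ≤ pw N (1 / 2 - ε₂) := pw_mono hN (by linarith)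
  have hz2N : pw N (1 / 2 - ε₂) ≤ N + 1 := (pw_le hN (by linarith)).trans (Nat.le_succ N)
  set L := Real.log N with hLd
  set K := KK c v η' r N with hKd
  have hK1 : 1 / (C * L) ≤ K := by
    rw [div_le_iff₀ (by positivity)]
    rw [div_le_iff₀ hL0] at hK
    linarith
  have hK0 : 0 ≤ K := le_trans (by positivity) hK1
  have b := buch_low (ff c u v η' r N) (ff_nonneg c u v η' r N) hK0 hzz hz2N hS hU hM
  set Y : ℝ := (N : ℝ) / L with hY
  have hY0 : 0 ≤ Y := by positivity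
  have c1 : 1 / (C * L) * (Y / 4) ≤ ∑ p ∈ prm 0 (N + 1), ff c u v η' r N p := by
    have c2 : K * (Y / 2 - Y / 20) ≤ K * ((Nat.primeCounting N : ℝ) - pw N ε₁) :=
      mul_le_mul_of_nonneg_left (by linarith) hK0
    have c3 : 1 / (C * L) * (Y / 4) ≤ K * (Y / 4) := mul_le_mul_of_nonneg_right hK1 (by positivity)
    have c4 := mul_nonneg hK0 hY0
    linarith
  have c5 : ∑ p ∈ prm 0 (N + 1), ff c u v η' r N p ≤
      (((range (N + 1)).filter (Nice c u v η N)).card : ℝ) * (C * (2 * L) ^ (r + 1)) := by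
    rw [← sum_filter_ne_zero]
    have d1 : (prm 0 (N + 1)).filter (fun p => ff c u v η' r N p ≠ 0) ⊆
        (range (N + 1)).filter (Nice c u v η N) := by
      intro p hp
      obtain ⟨hp1, hp2⟩ := mem_filter.1 hp
      obtain ⟨_, hp3, hp4⟩ := mem_prm.1 hp1
      exact mem_filter.2 ⟨mem_range.2 hp3, nice_of hc he0 he1 he2 hN hll.1 hll.2 hmd hp4 hp2⟩
    refine (sum_le_card_nsmul _ _ (C * (2 * L) ^ (r + 1)) fun p hp => ?_).trans ?_
    · obtain ⟨_, hp3, hp4⟩ := mem_prm.1 (mem_filter.1 hp).1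
      have hp2 := hp4.two_le
      have hNN : N ≤ N ^ 2 := Nat.le_self_pow two_ne_zero N
      refine (ff_le hC0.le hg hp2 (by omega)).trans (mul_le_mul_of_nonneg_left ?_ hC0.le)
      have d2 : (WW r (ell N) (p - 1) : ℝ) ≤ ((p - 1).primeFactors.card : ℝ) ^ (r + 1) := by
        exact_mod_cast WW_le r (ell N) (show p - 1 ≠ 0 by omega)
      exact d2.trans (pow_le_pow_left₀ (Nat.cast_nonneg _)
        (omega_le (by omega) (by omega)) _)
    · rw [nsmul_eq_mul]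
      exact mul_le_mul_of_nonneg_right (by exact_mod_cast card_le_card d1) (by positivity)
  have c6 := c1.trans c5
  rw [← div_le_iff₀ (by positivity)] at c6
  refine le_trans ?_ c6
  have e1 : 1 / (C * L) * (Y / 4) / (C * (2 * L) ^ (r + 1)) =
      (N : ℝ) / (4 * C ^ 2 * 2 ^ (r + 1) * L ^ (r + 3)) := by
    rw [hY, mul_pow]
    field_simp
    ring
  rw [e1]
  refine div_le_div_of_nonneg_left (Nat.cast_nonneg _) (by positivity) ?_
  rw [pow_succ' L (r + 3)]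
  exact mul_le_mul_of_nonneg_right hLC (by positivity)

end Vale.Agent.P016Z.Pr
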