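import Vale.Agent.P016Z.Pr.Defs
import Vale.Agent.P005Z.Fl

/-! P016: the fundamental lemma of the sieve for a general density. -/

open Finset Filter

namespace Vale.Agent.P016Z.Pr

open Vale.Agent.P005Z Vale.Agent.P005.RN

namespace Flg

lemma prod_ge_exp' (P : Finset ℕ) (g : ℕ → ℝ) (hg : ∀ p ∈ P, 0 ≤ g p ∧ g p ≤ 1 / 2) :
    Real.exp (-(2 * ∑ p ∈ P, g p)) ≤ ∏ p ∈ P, (1 - g p) := by
  rw [mul_sum, ← sum_neg_distrib, Real.exp_sum]
  refine prod_le_prod (fun p _ => (Real.exp_pos _).le) fun p hp => ?_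
  obtain ⟨h0, h1⟩ := hg p hp
  set t := g p with ht
  have h2 : Real.exp (-(2 * t)) * Real.exp (2 * t) = 1 := by
    rw [← Real.exp_add]; simp
  have h3 : 2 * t + 1 ≤ Real.exp (2 * t) := Real.add_one_le_exp _
  have h4 : 1 ≤ (1 - t) * (2 * t + 1) := by nlinarith
  have h5 : (1 - t) * (2 * t + 1) ≤ (1 - t) * Real.exp (2 * t) :=
    mul_le_mul_of_nonneg_left h3 (by linarith)
  have h6 : 0 < Real.exp (2 * t) := Real.exp_pos _
  nlinarith

/-- the relative error of one block -/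
noncomputable def fb2 (k : ℕ) : ℝ := Real.exp 84 * (42 ^ k / (k.factorial : ℝ))

lemma fb2_nonneg (k : ℕ) : 0 ≤ fb2 k := by unfold fb2; positivity

variable {P : Finset ℕ} {g : ℕ → ℝ}

lemma blk_mid' (hg : ∀ p ∈ P, 0 ≤ g p ∧ g p ≤ 1 / 2 ∧ g p ≤ 2 / (p : ℝ)) (y : ℝ) (hy : 2 ≤ y)
    (b : ℕ) :
    Blk (P ∩ (PZ (y ^ 2) \ PZ y)) g (2 * b) ((y ^ 2) ^ (2 * b + 1)) (fb2 (2 * b + 1)) := by
  have h0 := blk_mid y hy b
  have hg' : ∀ p ∈ P ∩ (PZ (y ^ 2) \ PZ y), 0 ≤ g p ∧ g p ≤ 1 / 2 := fun p hp =>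
    ⟨(hg p (mem_inter.1 hp).1).1, (hg p (mem_inter.1 hp).1).2.1⟩
  refine ⟨h0.hr, h0.hZ1, fun S hS hc => h0.hZ S (hS.trans inter_subset_right) hc,
    fun p hp => ⟨(hg' p hp).1, by linarith [(hg' p hp).2]⟩, fb2_nonneg _, ?_⟩
  have h1 := esy_le _ g (fun p hp => (hg' p hp).1) (2 * b + 1)
  have h2 : ∑ p ∈ P ∩ (PZ (y ^ 2) \ PZ y), g p ≤ 42 := by
    have a1 : ∑ p ∈ P ∩ (PZ (y ^ 2) \ PZ y), g p ≤
        ∑ p ∈ P ∩ (PZ (y ^ 2) \ PZ y), 2 * (1 / (p : ℝ)) :=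
      sum_le_sum fun p hp => by
        rw [mul_one_div]
        exact (hg p (mem_inter.1 hp).1).2.2
    have a2 : ∑ p ∈ P ∩ (PZ (y ^ 2) \ PZ y), 2 * (1 / (p : ℝ)) ≤
        ∑ p ∈ PZ (y ^ 2) \ PZ y, 2 * (1 / (p : ℝ)) :=
      sum_le_sum_of_subset_of_nonneg inter_subset_right fun p _ _ => by positivity
    have a3 := block_sum y hy
    rw [← mul_sum (PZ (y ^ 2) \ PZ y)] at a2
    linarith
  have h3 : 0 ≤ ∑ p ∈ P ∩ (PZ (y ^ 2) \ PZ y), g p := sum_nonneg fun p hp => (hg' p hp).1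
  have h4 : Real.exp (-84) ≤ ∏ p ∈ P ∩ (PZ (y ^ 2) \ PZ y), (1 - g p) :=
    le_trans (Real.exp_le_exp.2 (by linarith)) (prod_ge_exp' _ g hg')
  have h5 : (∑ p ∈ P ∩ (PZ (y ^ 2) \ PZ y), g p) ^ (2 * b + 1) / ((2 * b + 1).factorial : ℝ) ≤
      42 ^ (2 * b + 1) / ((2 * b + 1).factorial : ℝ) :=
    div_le_div_of_nonneg_right (pow_le_pow_left₀ h3 h2 _) (by positivity)
  have h6 : fb2 (2 * b + 1) * Real.exp (-84) =
      42 ^ (2 * b + 1) / ((2 * b + 1).factorial : ℝ) := by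
    have : Real.exp 84 * Real.exp (-84) = 1 := by rw [← Real.exp_add]; simp
    rw [fb2, mul_right_comm, this, one_mul]
  exact (h1.trans h5).trans (h6.symm.le.trans (mul_le_mul_of_nonneg_left h4 (fb2_nonneg _)))

lemma blk_low' (hg : ∀ p ∈ P, 0 ≤ g p ∧ g p ≤ 1 / 2 ∧ g p ≤ 2 / (p : ℝ)) (y : ℝ) (hy : 1 ≤ y)
    (c : ℕ) : Blk (P ∩ PZ y) g (2 * (PZ y).card) ((4 : ℝ) ^ y * y ^ c) 0 := by
  have h0 := blk_low y hy c
  refine ⟨h0.hr, h0.hZ1, fun S hS hc => h0.hZ S (hS.trans inter_subset_right) hc,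
    fun p hp => ⟨(hg p (mem_inter.1 hp).1).1, by linarith [(hg p (mem_inter.1 hp).1).2.1]⟩,
    le_rfl, ?_⟩
  have := card_le_card (inter_subset_right (s₁ := P) (s₂ := PZ y))
  rw [esy_of_card_lt _ _ _ (by omega), zero_mul]

theorem sys_gen (hg : ∀ p ∈ P, 0 ≤ g p ∧ g p ≤ 1 / 2 ∧ g p ≤ 2 / (p : ℝ)) (y : ℝ) (hy : 2 ≤ y)
    (t : ℕ) : ∀ b : ℕ, ∃ U W : Finset ℕ → ℝ,
    Sys (P ∩ PZ (y ^ (2 ^ t))) g ((4 : ℝ) ^ y * (y ^ (2 ^ t)) ^ (4 * b + 6)) (t + 2)
      (∑ j ∈ range t, fb2 (2 * (b + j) + 1)) U W := by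
  induction t with
  | zero =>
    intro b
    have h := sys_step (sys_empty g) (blk_low' hg y (by linarith) (4 * b + 6))
      (disjoint_empty_left _)
    have e1 : y ^ (2 ^ 0) = y := by simp
    have e2 : (1 : ℝ) + 1 = ((0 : ℕ) : ℝ) + 2 := by norm_num
    have e3 : (0 : ℝ) + 0 = ∑ j ∈ range 0, fb2 (2 * (b + j) + 1) := by simp
    rw [empty_union, one_mul, e2, e3] at h
    rw [e1]
    exact ⟨_, _, h⟩
  | succ t ih =>
    intro b
    obtain ⟨U, W, hs⟩ := ih (b + 1)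
    have hy2 : 2 ≤ y ^ (2 ^ t) := by
      calc (2 : ℝ) ≤ y := hy
        _ = y ^ 1 := (pow_one y).symm
        _ ≤ y ^ (2 ^ t) := pow_le_pow_right₀ (by linarith) Nat.one_le_two_pow
    have hb := blk_mid' hg (y ^ (2 ^ t)) hy2 b
    have hd : Disjoint (P ∩ PZ (y ^ (2 ^ t)))
        (P ∩ (PZ ((y ^ (2 ^ t)) ^ 2) \ PZ (y ^ (2 ^ t)))) :=
      disjoint_of_subset_left inter_subset_right
        (disjoint_of_subset_right inter_subset_right disjoint_sdiff)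
    have h := sys_step hs hb hd
    have hsub : PZ (y ^ (2 ^ t)) ⊆ PZ ((y ^ (2 ^ t)) ^ 2) := PZ_mono (by nlinarith)
    have e1 : (y ^ (2 ^ t)) ^ 2 = y ^ (2 ^ (t + 1)) := by rw [← pow_mul, pow_succ]
    have e2 : P ∩ PZ (y ^ (2 ^ t)) ∪ P ∩ (PZ ((y ^ (2 ^ t)) ^ 2) \ PZ (y ^ (2 ^ t))) =
        P ∩ PZ (y ^ (2 ^ (t + 1))) := by
      rw [← inter_union_distrib_left, union_sdiff_of_subset hsub, e1]
    have e3 : (4 : ℝ) ^ y * (y ^ (2 ^ t)) ^ (4 * (b + 1) + 6) * ((y ^ (2 ^ t)) ^ 2) ^ (2 * b + 1) =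
        (4 : ℝ) ^ y * (y ^ (2 ^ (t + 1))) ^ (4 * b + 6) := by
      rw [← e1]
      ring
    have e4 : ∑ j ∈ range t, fb2 (2 * (b + 1 + j) + 1) + fb2 (2 * b + 1) =
        ∑ j ∈ range (t + 1), fb2 (2 * (b + j) + 1) := by
      rw [sum_range_succ', add_zero]
      congr 1
      refine sum_congr rfl fun j _ => ?_
      congr 1
      ring
    have e5 : (t : ℝ) + 2 + 1 = ((t + 1 : ℕ) : ℝ) + 2 := by push_cast; ring
    rw [e2, e3, e4, e5] at h
    exact ⟨_, _, h⟩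

lemma fb2_le (k : ℕ) : fb2 k ≤ Real.exp (210 - k) := by
  have he : Real.exp 1 ≤ 3 := by have := Real.exp_one_lt_d9; linarith
  have h1 := Real.pow_div_factorial_le_exp (126 : ℝ) (by norm_num) k
  have h2 : (42 : ℝ) ^ k * Real.exp k ≤ 126 ^ k := by
    rw [← Real.exp_one_pow, ← mul_pow]
    exact pow_le_pow_left₀ (by positivity) (by linarith) k
  have h3 : (42 : ℝ) ^ k / (k.factorial : ℝ) * Real.exp k ≤ Real.exp 126 := by
    rw [div_mul_eq_mul_div]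
    exact (div_le_div_of_nonneg_right h2 (by positivity)).trans h1
  have h4 : Real.exp (210 - k) = Real.exp 84 * (Real.exp 126 / Real.exp k) := by
    rw [← Real.exp_sub, ← Real.exp_add]
    congr 1
    ring
  rw [fb2, h4]
  refine mul_le_mul_of_nonneg_left ?_ (Real.exp_pos _).le
  rw [le_div_iff₀ (Real.exp_pos _)]
  exact h3

lemma tail_le {b : ℕ} (hb : 211 ≤ b) (t : ℕ) :
    ∑ j ∈ range t, fb2 (2 * (b + j) + 1) ≤ Real.exp (-(b : ℝ)) / 2 := by
  have h2 : (2 : ℝ) ≤ Real.exp 1 := by have := Real.add_one_le_exp (1 : ℝ); linarith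
  have h1 : ∀ j ∈ range t, fb2 (2 * (b + j) + 1) ≤ Real.exp (209 - 2 * b) * (1 / 2) ^ j := by
    intro j _
    refine (fb2_le _).trans ?_
    have e : (210 : ℝ) - ((2 * (b + j) + 1 : ℕ) : ℝ) = (209 - 2 * b) + j * (-2) := by
      push_cast
      ring
    rw [e, Real.exp_add, Real.exp_nat_mul]
    refine mul_le_mul_of_nonneg_left (pow_le_pow_left₀ (Real.exp_pos _).le ?_ j)
      (Real.exp_pos _).le
    rw [Real.exp_neg, one_div]
    apply inv_anti₀ (by norm_num)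
    exact h2.trans (Real.exp_le_exp.2 (by norm_num))
  refine (sum_le_sum h1).trans ?_
  rw [← mul_sum]
  have h3 : ∑ j ∈ range t, (1 / 2 : ℝ) ^ j ≤ 2 := sum_geometric_two_le t
  have h4 : Real.exp (209 - 2 * b) * 4 ≤ Real.exp (-(b : ℝ)) := by
    have h5 : (4 : ℝ) ≤ Real.exp 2 := by
      have : Real.exp 2 = Real.exp 1 * Real.exp 1 := by rw [← Real.exp_add]; norm_num
      nlinarith
    have h6 : (211 : ℝ) ≤ b := by exact_mod_cast hb
    calc Real.exp (209 - 2 * b) * 4 ≤ Real.exp (209 - 2 * b) * Real.exp 2 :=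
          mul_le_mul_of_nonneg_left h5 (Real.exp_pos _).le
      _ = Real.exp (211 - 2 * b) := by rw [← Real.exp_add]; congr 1; ring
      _ ≤ _ := Real.exp_le_exp.2 (by linarith)
  have h5 := mul_le_mul_of_nonneg_left h3 (Real.exp_pos (209 - 2 * b)).le
  linarith

/-- The sieve weights for a set of primes below `y`. -/
theorem sys_main {b y : ℕ} (hb : 211 ≤ b) (hy : 100 ≤ y) (hP : P ⊆ prm 0 y)
    (hg : ∀ p ∈ P, 0 ≤ g p ∧ g p ≤ 1 / 2 ∧ g p ≤ 2 / (p : ℝ)) :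
    ∃ (D B H : ℝ) (U W : Finset ℕ → ℝ), Sys P g D B H U W ∧ B ≤ y ∧
      D ≤ (y : ℝ) ^ (4 * b + 10) ∧ H ≤ Real.exp (-(b : ℝ)) / 2 := by
  obtain ⟨z, hz⟩ : ∃ z : ℝ, z = (y : ℝ) := ⟨_, rfl⟩
  rw [← hz]
  have hz100 : 100 ≤ z := by rw [hz]; exact_mod_cast hy
  have hz0 : 0 < z := by linarith
  have he : Real.exp 1 ≤ 3 := by have := Real.exp_one_lt_d9; linarith
  have hze : Real.exp 4 ≤ z := by
    have h1 : Real.exp 4 = Real.exp 1 ^ 4 := by rw [Real.exp_one_pow]; norm_num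
    have h2 : Real.exp 1 ^ 4 ≤ 3 ^ 4 := pow_le_pow_left₀ (Real.exp_pos _).le he 4
    linarith
  obtain ⟨t, x, hx2, hxl, hxz, ht⟩ := exists_t z hze
  obtain ⟨U, W, hs⟩ := sys_gen hg x hx2 t b
  have e : P ∩ PZ z = P := by
    refine inter_eq_left.2 fun p hp => (mem_PZ hz0.le).2 ⟨?_, Fl.prm_prime (hP hp)⟩
    rw [hz]
    exact_mod_cast (Fl.prm_lt (hP hp)).le
  rw [hxz, e] at hs
  refine ⟨_, _, _, U, W, hs, ?_, ?_, tail_le hb t⟩
  · have h1 : Real.log (z / 4) ≤ z / 4 - 1 := Real.log_le_sub_one_of_pos (by positivity)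
    rw [Real.log_div hz0.ne' (by norm_num)] at h1
    have h2 : Real.log 4 ≤ 4 - 1 := Real.log_le_sub_one_of_pos (by norm_num)
    linarith
  · have h4y : (4 : ℝ) ^ x ≤ z ^ 2 := by
      calc (4 : ℝ) ^ x ≤ (4 : ℝ) ^ Real.log z :=
            Real.rpow_le_rpow_of_exponent_le (by norm_num) hxl
        _ = z ^ Real.log 4 := by
          rw [Real.rpow_def_of_pos (by norm_num), Real.rpow_def_of_pos hz0, mul_comm]
        _ ≤ z ^ (2 : ℝ) := by
          apply Real.rpow_le_rpow_of_exponent_le (by linarith)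
          have : Real.log 4 = 2 * Real.log 2 := by
            rw [show (4 : ℝ) = 2 ^ 2 by norm_num, Real.log_pow]; push_cast; ring
          have h2 := Real.log_two_lt_d9
          linarith
        _ = z ^ 2 := by norm_num
    calc (4 : ℝ) ^ x * z ^ (4 * b + 6) ≤ z ^ 2 * z ^ (4 * b + 6) :=
          mul_le_mul_of_nonneg_right h4y (by positivity)
      _ = z ^ (4 * b + 8) := by ring
      _ ≤ z ^ (4 * b + 10) := pow_le_pow_right₀ (by linarith) (by omega)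

end Flg

open Flg

theorem flg : FLG := by
  refine ⟨211, fun b hb y hy P hP g hg => ?_⟩
  obtain ⟨D, B, H, U, W, hs, hB, hD, hH⟩ := sys_main hb hy hP hg
  have hpr : ∀ p ∈ P, p.Prime := fun p hp => Fl.prm_prime (hP hp)
  obtain ⟨hH1, hexp⟩ := Fl.exp_le hs.hH hH
  set T := P.powerset.filter (fun S => U S ≠ 0 ∨ W S ≠ 0) with hT
  have hTP : ∀ S ∈ T, S ⊆ P := fun S hS => mem_powerset.1 (mem_filter.1 hS).1
  have hpf : ∀ S ∈ T, (∏ p ∈ S, p).primeFactors = S := fun S hS =>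
    Nat.primeFactors_prod fun p hp => hpr p (hTP S hS hp)
  have hinj : Set.InjOn (fun S : Finset ℕ => ∏ p ∈ S, p) T := by
    intro S hS S' hS' he
    have h2 := congrArg Nat.primeFactors he
    simp only at h2
    rwa [hpf S hS, hpf S' hS'] at h2
  have hev : ∀ w : Finset ℕ → ℝ, (∀ S, w S ≠ 0 → U S ≠ 0 ∨ W S ≠ 0) → ∀ h : ℕ → ℝ,
      ev P w h = ∑ d ∈ T.image (fun S => ∏ p ∈ S, p),
        w d.primeFactors * ∏ p ∈ d.primeFactors, h p := by
    intro w hw h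
    rw [sum_image hinj, sum_congr rfl fun S hS => by rw [hpf S hS], hT, sum_filter, ev]
    refine sum_congr rfl fun S _ => ?_
    split_ifs with h0
    · rfl
    · have : w S = 0 := by
        by_contra h1
        exact h0 (hw S h1)
      rw [this, zero_mul]
  have hind : ∀ (w : Finset ℕ → ℝ) (m : ℕ), ∑ d ∈ T.image (fun S => ∏ p ∈ S, p),
      w d.primeFactors * ∏ p ∈ d.primeFactors, (if p ∣ m then (1 : ℝ) else 0) =
      ∑ d ∈ (T.image (fun S => ∏ p ∈ S, p)).filter (fun d => d ∣ m), w d.primeFactors := by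
    intro w m
    rw [sum_filter (fun d => d ∣ m)]
    refine sum_congr rfl fun d hd => ?_
    obtain ⟨S, hS, rfl⟩ := mem_image.1 hd
    rw [hpf S hS]
    by_cases h : (∏ p ∈ S, p) ∣ m
    · rw [if_pos h, Finset.prod_eq_one, mul_one]
      intro p hp
      exact if_pos ((Finset.dvd_prod_of_mem (fun p => p) hp).trans h)
    · rw [if_neg h]
      have : ∃ p ∈ S, ¬ p ∣ m := by
        by_contra hcon
        push Not at hcon
        exact h (Finset.prod_primes_dvd _ (fun p hp => (hpr p (hTP S hS hp)).prime) hcon)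
      obtain ⟨p, hp, hpd⟩ := this
      rw [Finset.prod_eq_zero hp (if_neg hpd), mul_zero]
  have hV : 0 ≤ ∏ p ∈ P, (1 - g p) := prod_nonneg fun p hp => by linarith [(hs.hg p hp).2]
  refine ⟨T.image (fun S => ∏ p ∈ S, p), fun d => U d.primeFactors, fun d => W d.primeFactors,
    ?_, fun m => ?_, ?_, ?_⟩
  · intro d hd
    obtain ⟨S, hS, rfl⟩ := mem_image.1 hd
    beta_reduce
    rw [hpf S hS]
    refine ⟨?_, ?_, hTP S hS, hs.bU S (hTP S hS), (hs.bW S (hTP S hS)).trans hB⟩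
    · refine Finset.squarefree_prod_of_pairwise_isCoprime ?_
        fun p hp => (hpr p (hTP S hS hp)).prime.squarefree
      intro p hp q hq hpq
      exact Nat.coprime_iff_isRelPrime.1
        ((Nat.coprime_primes (hpr p (hTP S hS hp)) (hpr q (hTP S hS hq))).2 hpq)
    · push_cast
      rcases (mem_filter.1 hS).2 with h | h
      · exact (hs.dU S (hTP S hS) h).trans hD
      · exact (hs.dW S (hTP S hS) h).trans hD
  · have h01 : ∀ p ∈ P, 0 ≤ (if p ∣ m then (1 : ℝ) else 0) ∧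
        (if p ∣ m then (1 : ℝ) else 0) ≤ 1 := by
      intro p _
      split_ifs <;> simp
    have h2 : (if ∀ p ∈ P, ¬ p ∣ m then (1 : ℝ) else 0) =
        ∏ p ∈ P, (1 - if p ∣ m then (1 : ℝ) else 0) := by
      by_cases h : ∀ p ∈ P, ¬ p ∣ m
      · rw [if_pos h]
        refine (Finset.prod_eq_one fun p hp => ?_).symm
        rw [if_neg (h p hp), sub_zero]
      · rw [if_neg h]
        push Not at h
        obtain ⟨p, hp, hpd⟩ := h
        exact (Finset.prod_eq_zero hp (by rw [if_pos hpd, sub_self])).symm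
    rw [h2, ← hind W m, ← hind U m, ← hev W (fun _ h => Or.inr h), ← hev U (fun _ h => Or.inl h)]
    exact ⟨hs.lo _ h01, hs.up _ h01⟩
  · rw [← hev U (fun _ h => Or.inl h), mul_comm]
    exact hs.mU.trans (mul_le_mul_of_nonneg_left hexp hV)
  · rw [← hev W (fun _ h => Or.inr h), mul_comm]
    have a1 : (∏ p ∈ P, (1 - g p)) * (1 - Real.exp (-(b : ℝ))) ≤ (∏ p ∈ P, (1 - g p)) * (1 - H) :=
      mul_le_mul_of_nonneg_left (by linarith [Real.exp_pos (-(b : ℝ))]) hV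
    exact a1.trans ((mul_le_mul_of_nonneg_right (hs.up g hs.hg) (by linarith)).trans hs.mW)

end Vale.Agent.P016Z.Pr
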