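import Vale.Agent.P016Z.Pr.Defs
import Vale.Agent.P005Z.Grp

/-!
P016, block PRIMES: one group of primes against one dyadic range of rough numbers.
-/

open Finset Filter

namespace Vale.Agent.P016Z.Pr

open Vale.Agent.P005Z Vale.Agent.P005Z.Grp

namespace GrpA

theorem sw_cls {X : ℝ} {K B M : ℕ} {β : ℕ → ℂ} (h : SW X (K + 1) B β) (hM : 1 ≤ M)
    (hML : (M : ℝ) ≤ Real.log X) (R : ℕ → Prop) [DecidablePred R] :
    SW X K B (fun b => if R (b % M) then β b else 0) := by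
  intro s c u hs hsK hu
  have hM' : (1 : ℝ) ≤ M := by exact_mod_cast hM
  have hL : 0 < Real.log X := by linarith
  rcases le_or_gt s c with hc | hc
  · rw [filter_false_of_mem fun b _ => ((Nat.mod_lt b hs).trans_le hc).ne, sum_empty,
      norm_zero]
    positivity
  rw [← sum_fiberwise_of_maps_to (t := range M) (g := fun b => b / s % M)
    fun b _ => mem_range.2 (Nat.mod_lt _ hM)]
  refine (norm_sum_le _ _).trans ((sum_le_card_nsmul _ _ ((B : ℝ) / Real.log X ^ (K + 1))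
    fun i hi => ?_).trans ?_)
  · have e : ((Ico B u).filter (fun b => b % s = c)).filter (fun b => b / s % M = i) =
        (Ico B u).filter (fun b => b % (s * M) = c + s * i) := by
      rw [filter_filter]
      refine filter_congr fun b _ => ⟨fun hb => by rw [Nat.mod_mul, hb.1, hb.2], fun hb => ?_⟩
      rw [Nat.mod_mul] at hb
      have h1 := congrArg (· % s) hb
      simp only [Nat.add_mul_mod_self_left, Nat.mod_mod, Nat.mod_eq_of_lt hc] at h1
      rw [h1] at hb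
      exact ⟨h1, Nat.eq_of_mul_eq_mul_left hs (by omega)⟩
    rw [e, sum_congr rfl (g := fun b => if R ((c + s * i) % M) then β b else 0) fun b hb => by
      rw [← (mem_filter.1 hb).2, Nat.mod_mul_left_mod]]
    split_ifs
    · refine h (s * M) _ u (Nat.mul_pos hs hM) ?_ hu
      push_cast
      rw [pow_succ]
      exact mul_le_mul hsK hML (by positivity) (by positivity)
    · rw [sum_const_zero, norm_zero]
      positivity
  · rw [card_range, nsmul_eq_mul, mul_div_assoc', div_le_div_iff₀ (by positivity) (by positivity),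
      pow_succ]
    nlinarith [mul_le_mul_of_nonneg_left hML (show 0 ≤ (B : ℝ) * Real.log X ^ K by positivity)]

theorem bet_part {c u v r N A B : ℕ} {η : ℝ} {G : Finset ℕ} {CF Z : ℝ} {β : ℕ → ℝ}
    (hM : 1 ≤ c * v) (hG : G ⊆ prm A (2 * A)) (hB : 1 ≤ B) (hN : 4 * (A * B) ≤ N ^ 2) (hC : 1 ≤ CF)
    (hF : ∀ n : ℕ, 1 ≤ n → n ≤ N ^ 2 → gg c η N n ≤ CF)
    (hT : ∀ (a : ℕ) (α g : ℕ → ℂ), (∀ n, ‖α n‖ ≤ 1) → (∀ n, ‖g n‖ ≤ 1) →
      ‖∑ t ∈ MT r (ell N), ∑ z ∈ (prs A B).filter (fun z => md t ∣ z.1 * z.2 - 1),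
        α z.1 * (if a * (z.2 % (c * v)) % (c * v) = (c * u + 1) % (c * v) then (β z.2 : ℂ) else 0) *
          g ((z.1 * z.2 - 1) / md t)‖ ≤ Z) :
    ∑ p ∈ G, ∑ m ∈ Ico B (2 * B), β m * ff c u v η r N (p * m) ≤ (c * v : ℕ) * CF * Z := by
  have hC0 : 0 < CF := by linarith
  rw [← sum_fiberwise_of_maps_to (t := range (c * v)) (g := fun p => p % (c * v))
    fun b _ => mem_range.2 (Nat.mod_lt _ hM)]
  refine (sum_le_card_nsmul _ _ (CF * Z) fun a _ => ?_).trans
    (by rw [card_range, nsmul_eq_mul, mul_assoc])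
  have hG' : G.filter (fun p => p % (c * v) = a) ⊆ prm A (2 * A) := (filter_subset _ _).trans hG
  have H := hT a (fun n => ((if n ∈ G.filter (fun p => p % (c * v) = a) then 1 else 0 : ℝ) : ℂ))
    (fun n => ((if 1 ≤ n ∧ n ≤ N ^ 2 then gg c η N n / CF else 0 : ℝ) : ℂ))
    (fun n => by rw [Complex.norm_real]; split_ifs <;> simp)
    (fun n => by
      rw [Complex.norm_real]
      split_ifs with hn
      · rw [Real.norm_eq_abs, abs_of_nonneg (div_nonneg (gg_nonneg _ _ _ _) hC0.le), div_le_one hC0]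
        exact hF n hn.1 hn.2
      · simp)
  have e : ∀ (R : Prop) [Decidable R] (x : ℝ), (if R then (x : ℂ) else 0) =
      ((if R then x else 0 : ℝ) : ℂ) := fun R _ x => by split_ifs <;> simp
  simp only [e, ← Complex.ofReal_mul, ← Complex.ofReal_sum, Complex.norm_real,
    Real.norm_eq_abs] at H
  refine le_trans (le_of_eq ?_) (mul_le_mul_of_nonneg_left ((le_abs_self _).trans H) hC0.le)
  generalize hGa : G.filter (fun p => p % (c * v) = a) = Ga at hG'
  simp only [sum_filter, prs, sum_product]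
  rw [sum_comm (s := MT r (ell N)), ← sum_subset hG' (fun p _ hp => by simp [hp]), mul_sum]
  refine sum_congr rfl fun p hp => ?_
  rw [sum_comm, mul_sum]
  refine sum_congr rfl fun m hm => ?_
  have ha : p % (c * v) = a := by
    rw [← hGa] at hp
    exact (mem_filter.1 hp).2
  rw [ff, Nat.mul_mod, ha, if_pos hp]
  by_cases h0 : a * (m % (c * v)) % (c * v) = (c * u + 1) % (c * v)
  swap
  · simp only [if_neg h0, mul_zero, zero_mul, ite_self, sum_const_zero]
  rw [if_pos h0, if_pos h0, sum_filter, mul_sum, mul_sum]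
  refine sum_congr rfl fun t _ => ?_
  split_ifs with h1 h2
  · field_simp
  · exfalso
    have hp' := hG' hp
    rw [prm, mem_filter, mem_Ico] at hp'
    rw [mem_Ico] at hm
    have h3 : 2 * 1 ≤ p * m := Nat.mul_le_mul hp'.2.two_le (hB.trans hm.1)
    have h4 : p * m ≤ 2 * A * (2 * B) := Nat.mul_le_mul hp'.1.2.le hm.2.le
    refine h2 ⟨Nat.div_pos (Nat.le_of_dvd (by omega) h1) (Nat.pos_of_dvd_of_pos h1 (by omega)), ?_⟩
    refine (Nat.div_le_self _ _).trans ?_
    have : 2 * A * (2 * B) = 4 * (A * B) := by ring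
    omega
  · simp

theorem blk {G D : Finset ℕ} {v : ℕ → ℕ → ℝ} (hv : ∀ p m, 0 ≤ v p m) {θ θ' S W x η Q E : ℝ}
    {w s s' : ℕ} {lam den : ℕ → ℝ} (hθ : 0 ≤ θ) (hθ' : 0 ≤ θ') (hS : θ' * S ≤ θ) (hs : s ≤ s')
    (hx : 0 ≤ x) (hη : 3 * x ≤ η)
    (hη1 : η ≤ 1) (hQ : 0 ≤ Q) (hW : 0 ≤ W) (hE : 0 ≤ E)
    (hD : ∀ d ∈ D, 1 ≤ d ∧ (d : ℝ) ≤ W ∧ |lam d| ≤ 1)
    (hup : ∀ m : ℕ, (if Rgh w m then (1 : ℝ) else 0) ≤ ∑ d ∈ D.filter (fun d => d ∣ m), lam d)
    (hsum : ∑ d ∈ D, lam d / den d ≤ (1 + x) * (S * Q))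
    (hTI : ∀ d ∈ D, |∑ p ∈ G, ∑ m ∈ (Ico s s').filter (fun m => d ∣ m), v p m -
      (G.card : ℝ) * (((s' : ℝ) - s) / den d) * θ'| ≤ E)
    (hFL : |((rgs w s s').card : ℝ) - ((s' : ℝ) - s) * Q| ≤ x * (((s' : ℝ) - s) * Q) + W) :
    ∑ p ∈ G, ∑ m ∈ rgs w s s', v p m ≤
      (1 + η) * θ * ((G.card : ℝ) * (rgs w s s').card) + (2 * θ * G.card * W + W * E) := by
  have hY : (0 : ℝ) ≤ (s' : ℝ) - s := sub_nonneg.2 (by exact_mod_cast hs)
  have h1 : ∑ p ∈ G, ∑ m ∈ rgs w s s', v p m ≤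
      ∑ d ∈ D, lam d * ∑ p ∈ G, ∑ m ∈ (Ico s s').filter (fun m => d ∣ m), v p m := by
    calc ∑ p ∈ G, ∑ m ∈ rgs w s s', v p m
        ≤ ∑ p ∈ G, ∑ m ∈ Ico s s', ∑ d ∈ D, lam d * (if d ∣ m then v p m else 0) := by
          refine sum_le_sum fun p _ => ?_
          rw [rgs, sum_filter]
          refine sum_le_sum fun m _ => ?_
          have := mul_le_mul_of_nonneg_right (hup m) (hv p m)
          rw [sum_filter, sum_mul] at this
          simp only [ite_mul, one_mul, zero_mul] at this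
          simpa only [mul_ite, mul_zero] using this
      _ = _ := by
          simp only [sum_filter, mul_sum]
          rw [sum_congr rfl fun p _ => sum_comm, sum_comm]
  have h2 : ∑ d ∈ D, lam d * ∑ p ∈ G, ∑ m ∈ (Ico s s').filter (fun m => d ∣ m), v p m ≤
      ∑ d ∈ D, ((G.card : ℝ) * ((s' : ℝ) - s) * θ' * (lam d / den d) + E) := by
    refine sum_le_sum fun d hd => ?_
    have h3 : |lam d * (∑ p ∈ G, ∑ m ∈ (Ico s s').filter (fun m => d ∣ m), v p m -
        (G.card : ℝ) * (((s' : ℝ) - s) / den d) * θ')| ≤ 1 * E := by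
      rw [abs_mul]
      exact mul_le_mul (hD d hd).2.2 (hTI d hd) (abs_nonneg _) zero_le_one
    have h4 := (abs_le.1 h3).2
    have e : (G.card : ℝ) * ((s' : ℝ) - s) * θ' * (lam d / den d) =
        lam d * ((G.card : ℝ) * (((s' : ℝ) - s) / den d) * θ') := by ring
    rw [e]
    linarith
  have h5 : (D.card : ℝ) ≤ W := by
    have : D ⊆ Icc 1 ⌊W⌋₊ := fun d hd =>
      mem_Icc.2 ⟨(hD d hd).1, Nat.le_floor (hD d hd).2.1⟩
    have h6 := card_le_card this
    rw [Nat.card_Icc, Nat.add_sub_cancel] at h6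
    exact le_trans (by exact_mod_cast h6) (Nat.floor_le hW)
  rw [sum_add_distrib, ← mul_sum, sum_const, nsmul_eq_mul] at h2
  have h7 : ((s' : ℝ) - s) * ((1 + x) * Q) ≤ (1 + η) * (rgs w s s').card + 2 * W := by
    have h8 := (abs_le.1 hFL).1
    have h9 : 0 ≤ ((s' : ℝ) - s) * Q := mul_nonneg hY hQ
    have h10 : (1 + x) ≤ (1 + η) * (1 - x) := by nlinarith
    have h11 := mul_le_mul_of_nonneg_left h10 h9
    have h12 : (1 + η) * (((s' : ℝ) - s) * Q * (1 - x)) ≤ (1 + η) * ((rgs w s s').card + W) :=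
      mul_le_mul_of_nonneg_left (by linarith) (by linarith)
    nlinarith
  have h13 : (G.card : ℝ) * ((s' : ℝ) - s) * θ' * ∑ d ∈ D, lam d / den d ≤
      (G.card : ℝ) * θ * ((1 + η) * (rgs w s s').card + 2 * W) := by
    calc _ ≤ (G.card : ℝ) * ((s' : ℝ) - s) * θ' * ((1 + x) * (S * Q)) :=
          mul_le_mul_of_nonneg_left hsum (by positivity)
      _ = (G.card : ℝ) * (θ' * S) * (((s' : ℝ) - s) * ((1 + x) * Q)) := by ring
      _ ≤ (G.card : ℝ) * θ * (((s' : ℝ) - s) * ((1 + x) * Q)) := by gcongr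
      _ ≤ _ := mul_le_mul_of_nonneg_left h7 (by positivity)
  have h14 := mul_le_mul_of_nonneg_right h5 hE
  linarith

theorem inv_totient {d : ℕ} (hd : Squarefree d) :
    ∏ p ∈ d.primeFactors, 1 / ((p : ℝ) - 1) = 1 / (Nat.totient d : ℝ) := by
  have h := Nat.totient_mul_prod_primeFactors d
  rw [Nat.prod_primeFactors_of_squarefree hd, mul_comm] at h
  rw [Nat.eq_of_mul_eq_mul_left (Nat.pos_of_ne_zero hd.ne_zero) h, prod_div_distrib, prod_const_one,
    Nat.cast_prod]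
  congr 1
  exact prod_congr rfl fun p hp => by
    rw [Nat.cast_sub (Nat.prime_of_mem_primeFactors hp).one_le, Nat.cast_one]

theorem g_bd {c v w : ℕ} (hc : Even c) : ∀ p ∈ PP c v w, 0 ≤ 1 / ((p : ℝ) - 1) ∧
    1 / ((p : ℝ) - 1) ≤ 1 / 2 ∧ 1 / ((p : ℝ) - 1) ≤ 2 / (p : ℝ) := by
  intro p hp
  rw [PP, mem_filter, prm, mem_filter] at hp
  have h2 : p ≠ 2 := fun h => hp.2 (h ▸ (even_iff_two_dvd.1 hc).mul_right v)
  have h3 : (3 : ℝ) ≤ p := by
    have := hp.1.2.two_le
    exact_mod_cast (by omega : 3 ≤ p)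
  refine ⟨div_nonneg zero_le_one (by linarith), one_div_le_one_div_of_le two_pos (by linarith), ?_⟩
  rw [div_le_div_iff₀ (by linarith) (by linarith)]
  linarith

theorem Q_pos (w : ℕ) : 0 < ∏ p ∈ prm 0 w, (1 - 1 / (p : ℝ)) := prod_pos fun p hp => by
  have : (1 : ℝ) < p := by exact_mod_cast (mem_filter.1 hp).2.one_lt
  rw [sub_pos, div_lt_one (by linarith)]
  exact this

end GrpA

open GrpA in
theorem grp (h1 : SZ) (h2 : VVB) (h3 : FLC) (h4 : FLG) (h5 : TIIW) (h6 : RSW) (h7 : TI) : GRP := by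
  intro c u v η hH δ hδ C
  obtain ⟨CF, hCF, e1⟩ := h1 c u v η hH
  obtain ⟨r, K, e5⟩ := h5 δ hδ (C + 1)
  obtain ⟨c0, hc, e7⟩ := h7 c u v η hH (δ / 2) (half_pos hδ) r
  obtain ⟨b1, h3⟩ := h3
  obtain ⟨b2, h4⟩ := h4
  obtain ⟨c1, c10, c11, c12⟩ : ∃ c1 : ℝ, 0 < c1 ∧ c1 ≤ c0 / 2 ∧ c1 ≤ 1 / 4 :=
    ⟨_, lt_min (half_pos hc) (by norm_num), min_le_left _ _, min_le_right _ _⟩
  have hM : 1 ≤ c * v := Nat.mul_pos hH.hc hH.hv
  have hM' : (1 : ℝ) ≤ (c * v : ℕ) := by exact_mod_cast hM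
  have hMC : 1 ≤ (c * v : ℕ) * CF := one_le_mul_of_one_le_of_one_le hM' hCF
  have hMC' : ((c * v : ℕ) : ℝ) ≤ (c * v : ℕ) * CF := le_mul_of_one_le_right (by linarith) hCF
  refine ⟨r, ?_⟩
  filter_upwards [e1 r, e5, e7, h6 δ hδ (K + 1), h2 r 1 one_pos, ev_w (K + 1) (max b1 b2) c10,
    ev_pow (K + 1 + 1) 1 hδ, ev_pow (C + (K + 1) + 2) (12 * CF) c10,
    tL.eventually_ge_atTop (3 + 2 * ((c * v : ℕ) * CF)),
    eventually_ge_atTop 4] with N e1 e5 e7 e6 e2 ew ep1 ep2 eL eN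
  intro A B u' y G hG hA hB hAB hy hu
  have hN1 : (1 : ℝ) < N := by exact_mod_cast (by omega : 1 < N)
  have hN0 : (0 : ℝ) < N := by linarith
  have hL1 : 1 ≤ Real.log N := by linarith
  have hδ1 : (1 : ℝ) ≤ (N : ℝ) ^ δ := Real.one_le_rpow hN1.le hδ.le
  have hA1 : (1 : ℝ) ≤ A := hδ1.trans hA
  have hBδ : (N : ℝ) ^ δ ≤ B := le_trans (le_mul_of_one_le_left (by positivity) hA1) hB
  have hB1 : 1 ≤ B := by exact_mod_cast hδ1.trans hBδ
  have hBN : B ≤ N := by
    exact_mod_cast le_trans (le_mul_of_one_le_left (Nat.cast_nonneg B) hA1) hAB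
  have hABn : A * B ≤ N := by exact_mod_cast hAB
  have hwy : parW N (K + 1) ≤ y := by
    rw [one_mul] at ep1
    exact_mod_cast ew.1.trans (ep1.trans hy)
  have hV : 0 ≤ VV r (ell N) := zero_le_one.trans e2.1
  have θ0 : 0 ≤ KK c v η r N :=
    nonneg_of_mul_nonneg_right ((div_nonneg hV (by linarith)).trans e1.2.2.2.1) (by linarith)
  have θ1 : KK c v η r N ≤ CF * Real.log N := by
    refine e1.2.2.2.2.1.trans (mul_le_mul_of_nonneg_left ?_ (by linarith))
    exact (div_le_self hV hL1).trans e2.2.1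
  have D0 : 0 ≤ DD c v η r N :=
    div_nonneg (mul_nonneg hV (by linarith [e1.2.1])) (by positivity)
  have hS : DD c v η r N * SS c v (parW N (K + 1)) ≤ KK c v η r N := by
    refine mul_le_mul_of_nonneg_left (e1.2.2.2.2.2 _ _ le_rfl ?_).1 D0
    exact (Nat.ceil_le_ceil (le_self_pow₀ hL1 (Nat.add_one_ne_zero K))).trans (by unfold parW; omega)
  generalize KK c v η r N = θ at θ0 θ1 hS ⊢
  generalize DD c v η r N = θ' at D0 hS e7
  have P1 := GrpA.bet_part (u := u) (β := bet y (parW N (K + 1)) B (parH N (K + 1) B) u') hM hG hB1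
    (by rw [sq]; exact Nat.mul_le_mul eN hABn) hCF e1.1 fun a α g hα hg =>
      e5 A B hA hB hAB α (fun m => if a * (m % (c * v)) % (c * v) = (c * u + 1) % (c * v) then
        (bet y (parW N (K + 1)) B (parH N (K + 1) B) u' m : ℂ) else 0) g hα (fun n => by
        split_ifs
        · rw [Complex.norm_real]; exact bet_le hwy B _ u' n
        · simp) hg
        (sw_cls (e6 y B u' hy hBδ hBN hu) hM (by linarith)
          fun j => a * j % (c * v) = (c * u + 1) % (c * v))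
  have hx := exp_le (show 3 ≤ Real.log N by linarith) (max b1 b2)
  have hWc := ew.2.2
  have hw2 := ew.2.1
  have w100 : 100 ≤ parW N (K + 1) := by unfold parW; omega
  have hb1 : b1 ≤ max b1 b2 + ⌈3 * Real.log (Real.log N)⌉₊ :=
    (le_max_left _ _).trans (Nat.le_add_right _ _)
  have hb2 : b2 ≤ max b1 b2 + ⌈3 * Real.log (Real.log N)⌉₊ :=
    (le_max_right _ _).trans (Nat.le_add_right _ _)
  generalize max b1 b2 + ⌈3 * Real.log (Real.log N)⌉₊ = bb at hx hWc hb1 hb2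
  have h0 : 0 < parH N (K + 1) B := by unfold parH; omega
  have hnb := nb_le (K := K + 1) (B := B) hL1
  generalize parH N (K + 1) B = h at h0 hnb P1
  generalize parW N (K + 1) = w at hwy hS P1 hWc hw2 w100
  obtain ⟨D, lam, ll, hD, hup, hsum, -⟩ := h4 bb hb2 w w100 (PP c v w) (filter_subset _ _)
    (fun p => 1 / ((p : ℝ) - 1)) (g_bd hH.even)
  have hAs := A_le hN0 (Nat.cast_nonneg A) hB hAB
  have hGc : (G.card : ℝ) ≤ (N : ℝ) ^ (1 - 2 * c1) := by
    have b1 : G.card ≤ A := by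
      have := (card_le_card hG).trans (card_filter_le _ _)
      rw [Nat.card_Ico] at this
      omega
    exact le_trans (by exact_mod_cast b1)
      (hAs.trans (Real.rpow_le_rpow_of_exponent_le hN1.le (by linarith)))
  have P5 := err1 C hMC (show 2 * ((c * v : ℕ) * CF) ≤ Real.log N by linarith) hAB hN0.le
  have P6 := err2 C (K + 1) hCF hL1 hN1.le hnb θ0 θ1 (Nat.cast_nonneg _) hGc
    (by positivity) hWc c11 ep2
  refine le_trans (model (G := G) (v := fun p m => ff c u v η r N (p * m)) (h := h)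
    (M := (1 + 1 / Real.log N ^ 2) * θ)
    (E := 2 * θ * G.card * (w : ℝ) ^ (4 * bb + 10) + (w : ℝ) ^ (4 * bb + 10) * (N : ℝ) ^ (1 - c0))
    h0 hu hwy (by positivity) fun s s' hs hs' => ?_) (by linarith only [P1, P5, P6])
  rcases le_or_gt s s' with hss | hss
  · refine GrpA.blk (D := D) (lam := lam) (den := fun d => (Nat.totient d : ℝ))
      (v := fun p m => ff c u v η r N (p * m)) (x := Real.exp (-(bb : ℝ)))
      (Q := ∏ p ∈ prm 0 w, (1 - 1 / (p : ℝ))) (fun p m => ff_nonneg _ _ _ _ _ _ _) θ0 D0 hS hss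
      (Real.exp_pos _).le hx ?_ (Q_pos w).le (by positivity) (by positivity)
      (fun d hd => ⟨Nat.pos_of_ne_zero (hD d hd).1.ne_zero, (hD d hd).2.1, (hD d hd).2.2.2.1⟩)
      (fun m => le_trans ?_ (hup m).2) ?_ (fun d hd => ?_) ?_
    · rw [div_le_one (by positivity)]
      exact one_le_pow₀ hL1
    · split_ifs with k1 k2
      · exact le_rfl
      · exact absurd (fun p hp => k1 p (mem_filter.1 hp).1) k2
      · exact zero_le_one
      · exact le_rfl
    · rw [SS, div_mul_cancel₀ _ (Q_pos w).ne']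
      refine le_trans (le_of_eq (sum_congr rfl fun d hd => ?_)) hsum
      rw [inv_totient (hD d hd).1, mul_one_div]
    · have hP : ∀ p : ℕ, p.Prime → p ∣ d → p ∈ PP c v w := fun p hp hpd =>
        (hD d hd).2.2.1 (Nat.mem_primeFactors.2 ⟨hp, hpd, (hD d hd).1.ne_zero⟩)
      refine e7 A s s' d G hG (le_trans ?_ hA) hAs (hB1.trans hs) hss ?_
        (Nat.pos_of_ne_zero (hD d hd).1.ne_zero) ?_
        (Nat.coprime_of_dvd fun p hp hpd => (mem_filter.1 (hP p hp hpd)).2) fun p hp hpd => ?_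
      · exact Real.rpow_le_rpow_of_exponent_le hN1.le (by linarith)
      · refine (Nat.mul_le_mul_left A (hs'.trans hu)).trans ?_
        rw [mul_left_comm]
        exact Nat.mul_le_mul_left 2 hABn
      · exact (hD d hd).2.1.trans
          (hWc.trans (Real.rpow_le_rpow_of_exponent_le hN1.le (by linarith)))
      · exact (mem_Ico.1 (mem_filter.1 (mem_filter.1 (hP p hp hpd)).1).1).2.trans_le hw2
    · have := h3 bb hb1 _ w100 (prm 0 w) Subset.rfl (fun _ => 0) s (s' - s)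
      rw [Nat.add_sub_cancel' hss, Nat.cast_sub hss] at this
      have e : rgs w s s' = (Ico s s').filter (fun m => ∀ p ∈ prm 0 w, m % p ≠ 0 % p) := by
        refine filter_congr fun m _ => ?_
        simp only [Rgh, Nat.zero_mod, ne_eq, Nat.dvd_iff_mod_eq_zero]
      rw [e]
      convert this
  · have : rgs w s s' = ∅ := by rw [rgs, Ico_eq_empty_of_le hss.le, filter_empty]
    rw [this]
    simp only [sum_empty, sum_const_zero, card_empty, Nat.cast_zero, mul_zero, zero_add]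
    positivity

end Vale.Agent.P016Z.Pr
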