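import Vale.Agent.P016Z.Pr.MidA

/-!
P016, block PRIMES: the discarded range of the Buchstab identity.
-/

open Finset Filter

namespace Vale.Agent.P016Z.Pr

open Vale.Agent.P005Z Vale.Agent.P005Z.MidAux

namespace Mid

theorem prod_le {CM A x : ℝ} (hCM : 0 < CM) (hM : ∀ a b : ℝ, 2 ≤ a → a ≤ b →
      |∑ p ∈ (Ioc ⌊a⌋₊ ⌊b⌋₊).filter Nat.Prime, (1 : ℝ) / p - Real.log (Real.log b / Real.log a)|
        ≤ CM / Real.log a) {y M : ℕ} (hy : 4 ≤ y)
    (hA : ∑ l ∈ (prm 5 (y + 1)).filter (fun l => l ∣ M), 1 / (l : ℝ) ≤ A) (hx : 0 < x)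
    (hxy : x ≤ Real.log y) :
    ∏ l ∈ (prm 5 (y + 1)).filter (fun l => ¬ l ∣ M), (1 - 2 / (l : ℝ)) ≤
      4 * Real.exp (2 * CM + 2 * A) / x ^ 2 := by
  have h4 : Real.log 4 = 2 * Real.log 2 := by
    rw [show (4 : ℝ) = 2 ^ 2 by norm_num, Real.log_pow]; norm_num
  have h41 : 1 ≤ Real.log 4 := by have := Real.log_two_gt_d9; linarith
  have h42 : Real.log 4 ≤ 2 := by have := Real.log_two_lt_d9; linarith
  have m1 := (abs_le.1 (hM 4 y (by norm_num) (by exact_mod_cast hy))).1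
  have e1 : (Ioc ⌊(4 : ℝ)⌋₊ ⌊(y : ℝ)⌋₊).filter Nat.Prime = prm 5 (y + 1) := by
    rw [Nat.floor_natCast, show ⌊(4 : ℝ)⌋₊ = 4 from Nat.floor_ofNat 4]
    ext p
    rw [mem_prm, mem_filter, mem_Ioc]
    constructor
    · rintro ⟨⟨a1, a2⟩, a3⟩; exact ⟨⟨by omega, by omega⟩, a3⟩
    · rintro ⟨⟨a1, a2⟩, a3⟩; exact ⟨⟨by omega, by omega⟩, a3⟩
  rw [e1, ← sum_filter_add_sum_filter_not _ (fun l => l ∣ M)] at m1
  have m2 : CM / Real.log 4 ≤ CM := div_le_self hCM.le h41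
  have m3 : Real.log (x / 2) ≤ Real.log (Real.log y / Real.log 4) := by
    refine Real.log_le_log (by positivity) ?_
    exact div_le_div₀ (hx.le.trans hxy) hxy (by linarith) h42
  set P := (prm 5 (y + 1)).filter (fun l => ¬ l ∣ M) with hP
  have m4 : Real.log (x / 2) - CM - A ≤ ∑ l ∈ P, 1 / (l : ℝ) := by linarith
  have m5 : ∏ l ∈ P, (1 - 2 / (l : ℝ)) ≤ ∏ l ∈ P, Real.exp (-2 * (1 / (l : ℝ))) := by
    refine prod_le_prod (fun p hp => ?_) fun p _ => ?_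
    · have h5 : (5 : ℝ) ≤ p := by exact_mod_cast (mem_prm.1 (mem_filter.1 hp).1).1.1
      rw [sub_nonneg, div_le_one (by linarith)]
      linarith
    · have := Real.add_one_le_exp (-2 * (1 / (p : ℝ)))
      rw [div_eq_mul_one_div]
      linarith
  refine m5.trans ?_
  rw [← Real.exp_sum, ← mul_sum]
  calc Real.exp (-2 * ∑ l ∈ P, 1 / (l : ℝ))
      ≤ Real.exp (2 * CM + 2 * A - (Real.log (x / 2) + Real.log (x / 2))) :=
        Real.exp_le_exp.2 (by linarith)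
    _ = _ := by
        rw [Real.exp_sub, Real.exp_add (Real.log (x / 2)), Real.exp_log (by positivity)]
        field_simp
        norm_num

/-- the sum of the reciprocals of the prime factors -/
noncomputable def rs (n : ℕ) : ℝ := ∑ l ∈ n.primeFactors, 1 / (l : ℝ)

theorem rs_mul {a b : ℕ} (ha : a ≠ 0) (hb : b ≠ 0) : rs (a * b) ≤ rs a + rs b := by
  unfold rs
  rw [Nat.primeFactors_mul ha hb, ← sum_union_inter]
  exact le_add_of_nonneg_right (sum_nonneg fun _ _ => by positivity)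

theorem rs_prime {q : ℕ} (hq : q.Prime) : rs q = 1 / (q : ℝ) := by
  rw [rs, hq.primeFactors, sum_singleton]

theorem rs_prime_le {q : ℕ} (hq : q.Prime) : rs q ≤ 1 := by
  rw [rs_prime hq]
  exact Nat.cast_inv_le_one q |>.trans_eq' (one_div _).symm

theorem rs_prod {ι : Type*} (s : Finset ι) (f : ι → ℕ) (hf : ∀ i ∈ s, f i ≠ 0) :
    rs (∏ i ∈ s, f i) ≤ ∑ i ∈ s, rs (f i) := by
  classical
  induction s using Finset.induction_on with
  | empty => simp [rs]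
  | insert i s hi ih =>
    have h2 : ∀ j ∈ s, f j ≠ 0 := fun j h => hf j (mem_insert_of_mem h)
    rw [prod_insert hi, sum_insert hi]
    exact (rs_mul (hf i (mem_insert_self i s)) (prod_ne_zero_iff.2 h2)).trans
      (add_le_add le_rfl (ih h2))

theorem rs_le (c : ℕ) : rs c ≤ c := by
  have h1 : c.primeFactors ⊆ Icc 1 c := fun l hl =>
    mem_Icc.2 ⟨(Nat.prime_of_mem_primeFactors hl).pos, Nat.le_of_mem_primeFactors hl⟩
  have h2 := card_le_card h1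
  rw [Nat.card_Icc, Nat.add_sub_cancel] at h2
  calc rs c ≤ ∑ _l ∈ c.primeFactors, (1 : ℝ) := sum_le_sum fun l _ =>
        Nat.cast_inv_le_one l |>.trans_eq' (one_div _).symm
    _ ≤ c := by rw [sum_const, nsmul_eq_mul, mul_one]; exact_mod_cast h2

theorem rs_md {r l : ℕ} (hl : 1 ≤ l) (hr : r ≤ l) {t : ℕ × (Fin r → ℕ)} (ht : t ∈ MT r l) :
    rs (md t) ≤ 2 := by
  obtain ⟨h1, h2⟩ := mem_product.1 ht
  have h3 : ∀ i : Fin r, (2 ^ (2 * l ^ ((i : ℕ) + 2)) ≤ t.2 i) ∧ (t.2 i).Prime := fun i =>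
    ⟨(mem_prm.1 (Fintype.mem_piFinset.1 h2 i)).1.1, (mem_prm.1 (Fintype.mem_piFinset.1 h2 i)).2⟩
  have h4 := (mem_prm.1 h1).2
  have hl0 : (0 : ℝ) < l := by exact_mod_cast hl
  have h5 : ∑ i, rs (t.2 i) ≤ ∑ _i : Fin r, 1 / (l : ℝ) := by
    refine sum_le_sum fun i _ => ?_
    rw [rs_prime (h3 i).2]
    refine one_div_le_one_div_of_le hl0 ?_
    have a1 : l ≤ l ^ ((i : ℕ) + 2) := Nat.le_self_pow (by omega) l
    have a2 : 2 * l ^ ((i : ℕ) + 2) < 2 ^ (2 * l ^ ((i : ℕ) + 2)) := Nat.lt_two_pow_self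
    have a3 := (h3 i).1
    exact_mod_cast (show l ≤ t.2 i by omega)
  rw [sum_const, card_univ, Fintype.card_fin, nsmul_eq_mul, mul_one_div] at h5
  have h6 : (r : ℝ) / l ≤ 1 := by rw [div_le_one hl0]; exact_mod_cast hr
  have h7 := rs_prod univ t.2 fun i _ => (h3 i).2.ne_zero
  have h8 := rs_mul h4.ne_zero (prod_ne_zero_iff.2 fun i (_ : i ∈ univ) => (h3 i).2.ne_zero)
  have h9 := rs_prime_le h4
  unfold md
  linarith

theorem sum_dvd_le {r l c q z : ℕ} (hl : 1 ≤ l) (hr : r ≤ l) {t : ℕ × (Fin r → ℕ)}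
    (ht : t ∈ MT r l) (hc : 0 < c) (hq : q.Prime) :
    ∑ p ∈ (prm 5 z).filter (fun p => p ∣ md t * (c * q)), 1 / (p : ℝ) ≤ c + 3 := by
  have h0 : md t ≠ 0 := (md_pos ht).trans_lt' one_pos |>.ne'
  have h1 : c * q ≠ 0 := mul_ne_zero hc.ne' hq.ne_zero
  have h2 : ∑ p ∈ (prm 5 z).filter (fun p => p ∣ md t * (c * q)), 1 / (p : ℝ) ≤
      rs (md t * (c * q)) := by
    refine sum_le_sum_of_subset_of_nonneg (fun p hp => ?_) fun _ _ _ => by positivity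
    exact Nat.mem_primeFactors.2 ⟨(mem_prm.1 (mem_filter.1 hp).1).2, (mem_filter.1 hp).2,
      mul_ne_zero h0 h1⟩
  linarith [rs_mul h0 h1, rs_mul hc.ne' hq.ne_zero, rs_md hl hr ht, rs_le c, rs_prime_le hq]

theorem Tp_le_pairs {c u v r N p : ℕ} {η : ℝ} (hN : 2 ≤ N) (hp : p.Prime) (hp3 : N < p ^ 3) :
    Tp c u v η r N p ≤ ∑ t ∈ MT r (ell N), ∑ q ∈ Q1s η N,
      ((pairs p (md t * (c * q)) (N / p + 1)).card : ℝ) := by
  have hL : 0 < Real.log N := Real.log_pos (by exact_mod_cast hN)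
  have h1 : ∀ m ∈ rgs p 2 (N / p + 1), ff c u v η r N (p * m) ≤
      ∑ t ∈ MT r (ell N), ∑ q ∈ Q1s η N,
        if m ∈ pairs p (md t * (c * q)) (N / p + 1) then (1 : ℝ) else 0 := by
    intro m hm
    obtain ⟨k1, k2, k3⟩ := rough_prime hp hp3 hm
    unfold ff
    split_ifs
    swap
    · exact sum_nonneg fun _ _ => sum_nonneg fun _ _ => by positivity
    rw [sum_filter]
    refine sum_le_sum fun t _ => ?_
    split_ifs with ht
    swap
    · exact sum_nonneg fun _ _ => by positivity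
    unfold gg
    rw [sum_filter]
    refine sum_le_sum fun q _ => ?_
    by_cases hq : c * q ∣ (p * m - 1) / md t ∧ ((p * m - 1) / md t / (c * q)).Prime
    swap
    · rw [if_neg hq]; positivity
    rw [if_pos hq, if_pos, div_le_one hL]
    · refine Real.log_le_log (by exact_mod_cast hq.2.pos) ?_
      have a1 : (p * m - 1) / md t / (c * q) ≤ N :=
        (Nat.div_le_self _ _).trans ((Nat.div_le_self _ _).trans (by omega))
      exact_mod_cast a1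
    · refine mem_filter.2 ⟨mem_range.2 (mem_prm.1 k1).1.2, (mem_prm.1 k1).2, k2, ?_, ?_⟩
      · exact Nat.mul_dvd_of_dvd_div ht hq.1
      · rw [← Nat.div_div_eq_div_mul]; exact hq.2
  refine (sum_le_sum h1).trans ?_
  rw [sum_comm]
  refine sum_le_sum fun t _ => ?_
  rw [sum_comm]
  refine sum_le_sum fun q _ => ?_
  rw [← sum_filter, sum_const, nsmul_eq_mul, mul_one, Nat.cast_le]
  exact card_le_card fun m hm => (mem_filter.1 hm).2

theorem pair_le {B c r l p N y q : ℕ} {CM X x : ℝ} (hU : UP B)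
    (hCM : 0 < CM) (hM : ∀ a b : ℝ, 2 ≤ a → a ≤ b →
      |∑ p ∈ (Ioc ⌊a⌋₊ ⌊b⌋₊).filter Nat.Prime, (1 : ℝ) / p - Real.log (Real.log b / Real.log a)|
        ≤ CM / Real.log a) (hl : 1 ≤ l) (hr : r ≤ l) {t : ℕ × (Fin r → ℕ)} (ht : t ∈ MT r l)
    (hc : 0 < c) (a2 : q.Prime) (a3 : (q : ℝ) ≤ 2 * X) (hmd : (md t : ℝ) ≤ X)
    (hXc : 2 * (c : ℝ) ≤ X) (hz2 : ((y + 1 : ℕ) : ℝ) ≤ X ^ 3)
    (hz3 : (((y + 1 : ℕ) : ℝ) ^ B) ^ 2 ≤ X ^ 5) (hp4 : X ^ 20 ≤ p) (hy3 : 100 ≤ y) (hx : 0 < x)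
    (hxy : x ≤ Real.log y) (hp : p.Prime) (hpp : p * p ≤ N) :
    ((pairs p (md t * (c * q)) (N / p + 1)).card : ℝ) ≤
      16 * Real.exp (2 * CM + 2 * (c + 3)) / x ^ 2 * N * (1 / p) *
        (1 / (md t : ℝ) * (1 / (q : ℝ))) + X ^ 5 := by
  have hc1 : (1 : ℝ) ≤ c := by exact_mod_cast hc
  have hX1 : 1 < X := by linarith
  have hX0 : 0 < X := by linarith
  have hp0 : (0 : ℝ) < p := by exact_mod_cast hp.pos
  have hzp : y + 1 ≤ p := by
    have : X ^ 3 ≤ X ^ 20 := pow_le_pow_right₀ hX1.le (by norm_num)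
    exact_mod_cast hz2.trans (this.trans hp4)
  have hNp : ((N / p + 1 : ℕ) : ℝ) ≤ 2 * (N * (1 / p)) := by
    have a1 : ((N / p : ℕ) : ℝ) ≤ N / p := Nat.cast_div_le
    have a2 : (1 : ℝ) ≤ N / p := by
      rw [le_div_iff₀ hp0, one_mul]
      exact_mod_cast (Nat.le_mul_self p).trans hpp
    rw [mul_one_div]
    push_cast
    linarith
  have a4 : (1 : ℝ) ≤ md t := by exact_mod_cast md_pos ht
  have a5 : (0 : ℝ) < q := by exact_mod_cast a2.pos
  have a6 : ((md t * (c * q) : ℕ) : ℝ) ≤ X ^ 3 := by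
    push_cast
    calc (md t : ℝ) * (c * q) ≤ X * (c * (2 * X)) := by gcongr
      _ = X ^ 2 * (2 * c) := by ring
      _ ≤ X ^ 2 * X := by gcongr
      _ = X ^ 3 := by ring
  have a7 : md t * (c * q) * (y + 1) + 1 ≤ p * p := by
    have b1 : ((md t * (c * q) : ℕ) : ℝ) * ((y + 1 : ℕ) : ℝ) ≤ X ^ 3 * X ^ 3 := by gcongr
    have b2 : X ^ 3 * X ^ 3 < X ^ 20 * X ^ 20 := by
      rw [← pow_add, ← pow_add]
      exact pow_lt_pow_right₀ hX1 (by norm_num)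
    have b3 : X ^ 20 * X ^ 20 ≤ p * p := by gcongr
    have b4 : md t * (c * q) * (y + 1) < p * p := by exact_mod_cast b1.trans_lt (b2.trans_le b3)
    omega
  have a8 := sieve hU (show 100 ≤ y + 1 by omega) hp hzp
    (Nat.mul_pos (md_pos ht) (Nat.mul_pos hc a2.pos)) a7 (N / p + 1)
  have a9 := prod_le hCM hM (show 4 ≤ y by omega) (sum_dvd_le hl hr ht hc a2) hx hxy
  set E : ℝ := Real.exp (2 * CM + 2 * (c + 3)) with hE
  refine a8.trans (add_le_add ?_ hz3)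
  have b1 : ((N / p + 1 : ℕ) : ℝ) / ((md t * (c * q) : ℕ) : ℝ) ≤
      2 * (N * (1 / p)) / (md t * q) := by
    refine div_le_div₀ (by positivity) hNp (by positivity) ?_
    push_cast
    have : (q : ℝ) ≤ c * q := le_mul_of_one_le_left a5.le hc1
    gcongr
  calc _ ≤ 2 * (2 * (N * (1 / p)) / (md t * q)) * (4 * E / x ^ 2) :=
        mul_le_mul (by linarith) a9 (prod_nonneg_two (filter_subset _ _)) (by positivity)
    _ = _ := by field_simp; ring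

theorem sizes {N B : ℕ} {κ X : ℝ} (hB : 1 ≤ B) (hκ : κ = 1 / (40 * B)) (hN2 : 2 ≤ N)
    (hz : 100 ≤ (N : ℝ) ^ κ) (hX : X = (N : ℝ) ^ (1 / 50 : ℝ)) :
    100 ≤ pw N κ ∧ ((pw N κ + 1 : ℕ) : ℝ) ≤ X ^ 3 ∧ (((pw N κ + 1 : ℕ) : ℝ) ^ B) ^ 2 ≤ X ^ 5 ∧
      κ * Real.log N ≤ Real.log (pw N κ) ∧ X ^ 20 = (N : ℝ) ^ (2 / 5 : ℝ) := by
  have hN1 : (1 : ℝ) < N := by exact_mod_cast hN2
  have hN0 : (0 : ℝ) < N := by linarith
  have hB0 : (1 : ℝ) ≤ B := by exact_mod_cast hB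
  have hκ1 : κ ≤ 1 / 40 := by
    rw [hκ]; exact one_div_le_one_div_of_le (by norm_num) (by linarith)
  have hXp : ∀ k : ℕ, X ^ k = (N : ℝ) ^ (k / 50 : ℝ) := fun k => by
    rw [hX, ← Real.rpow_natCast, ← Real.rpow_mul hN0.le]
    congr 1; ring
  set y := pw N κ with hy
  have hy1 : (N : ℝ) ^ κ ≤ y := Nat.le_ceil _
  have hy2 : (y : ℝ) < (N : ℝ) ^ κ + 1 := Nat.ceil_lt_add_one (by positivity)
  have hz1 : ((y + 1 : ℕ) : ℝ) ≤ (N : ℝ) ^ (2 * κ) := by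
    rw [two_mul, Real.rpow_add hN0]
    push_cast
    nlinarith
  refine ⟨by exact_mod_cast hz.trans hy1, ?_, ?_, ?_, ?_⟩
  · rw [hXp]
    exact hz1.trans (Real.rpow_le_rpow_of_exponent_le hN1.le (by push_cast; linarith))
  · rw [hXp, ← pow_mul]
    refine (pow_le_pow_left₀ (by positivity) hz1 _).trans (le_of_eq ?_)
    rw [← Real.rpow_natCast, ← Real.rpow_mul hN0.le, hκ]
    congr 1
    push_cast
    field_simp
    norm_num
  · rw [← Real.log_rpow hN0]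
    exact Real.log_le_log (by positivity) hy1
  · rw [hXp]; norm_num

theorem err_le {X L V Y : ℝ} (hX1 : 1 ≤ X) (hL : 0 < L) (hV1 : 1 ≤ V) (a1 : X ^ 20 ≤ Y)
    (a2 : 2 * L ^ 2 ≤ X) : X * (2 * X * X ^ 5) ≤ V * (Y / L ^ 2) := by
  have hX0 : 0 < X := by linarith
  have a3 : X * (2 * X * X ^ 5) * L ^ 2 ≤ Y := by
    calc X * (2 * X * X ^ 5) * L ^ 2 = X ^ 7 * (2 * L ^ 2) := by ring
      _ ≤ X ^ 7 * X := by gcongr
      _ = X ^ 8 := by ring
      _ ≤ X ^ 20 := pow_le_pow_right₀ hX1 (by norm_num)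
      _ ≤ _ := a1
  have hY : 0 ≤ Y := le_trans (by positivity) a1
  calc X * (2 * X * X ^ 5) ≤ Y / L ^ 2 := by rwa [le_div_iff₀ (by positivity)]
    _ ≤ V * (Y / L ^ 2) := le_mul_of_one_le_left (by positivity) hV1

theorem Tp_le {c u v r N p B : ℕ} {η κ CM e2 L V : ℝ} (hH : HC c u v η) (hU : UP B) (hB : 1 ≤ B)
    (hCM : 0 < CM) (hM : ∀ a b : ℝ, 2 ≤ a → a ≤ b →
      |∑ p ∈ (Ioc ⌊a⌋₊ ⌊b⌋₊).filter Nat.Prime, (1 : ℝ) / p - Real.log (Real.log b / Real.log a)|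
        ≤ CM / Real.log a)
    (hκ : κ = 1 / (40 * B)) (he1 : e2 ≤ 1 / 20) (hLd : L = Real.log N) (hL10 : 10 ≤ L)
    (hN2 : 2 ≤ N) (hV : V = VV r (ell N)) (hV1 : 1 ≤ V) (hth : th1 η N ≤ 1)
    (hcard : ((MT r (ell N)).card : ℝ) ≤ (N : ℝ) ^ (1 / 50 : ℝ))
    (hmd : ∀ t ∈ MT r (ell N), (md t : ℝ) ≤ (N : ℝ) ^ (1 / 50 : ℝ))
    (hl : 1 ≤ ell N) (hr : r ≤ ell N) (hz : 100 ≤ (N : ℝ) ^ κ)
    (hsm : 2 * c * L ^ 3 ≤ (N : ℝ) ^ (1 / 50 : ℝ))
    (hp : p ∈ prm (pw N (1 / 2 - e2)) (N + 1)) :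
    Tp c u v η r N p ≤ if p * p ≤ N then
      (16 * Real.exp (2 * CM + 2 * (c + 3)) / κ ^ 2 + 1) * V * ((N : ℝ) / L ^ 2) * (1 / p)
      else 0 := by
  have hL0 : 0 < L := by linarith
  have hN1 : (1 : ℝ) < N := by exact_mod_cast hN2
  have hN0 : (0 : ℝ) < N := by linarith
  have hB0 : (1 : ℝ) ≤ B := by exact_mod_cast hB
  have hκ0 : 0 < κ := by rw [hκ]; positivity
  have hc1 : (1 : ℝ) ≤ c := by exact_mod_cast hH.hc
  obtain ⟨⟨hp1, -⟩, hp⟩ := mem_prm.1 hp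
  have hp0 : (0 : ℝ) < p := by exact_mod_cast hp.pos
  have hp2 : (N : ℝ) ^ (2 / 5 : ℝ) ≤ p :=
    (Real.rpow_le_rpow_of_exponent_le hN1.le (by linarith)).trans (Nat.ceil_le.1 hp1)
  have hp3 : N < p ^ 3 := by
    have e1 : (N : ℝ) ^ (1 : ℝ) < ((N : ℝ) ^ (2 / 5 : ℝ)) ^ 3 := by
      rw [← Real.rpow_natCast, ← Real.rpow_mul hN0.le]
      exact Real.rpow_lt_rpow_of_exponent_lt hN1 (by norm_num)
    rw [Real.rpow_one] at e1
    have e2 : (N : ℝ) < (p : ℝ) ^ 3 := e1.trans_le (pow_le_pow_left₀ (by positivity) hp2 3)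
    exact_mod_cast e2
  split_ifs with hpp
  swap
  · refine le_of_eq (sum_eq_zero fun m hm => absurd ?_ hpp)
    obtain ⟨-, k2, k3⟩ := rough_prime hp hp3 hm
    exact (Nat.mul_le_mul_left p k2).trans k3
  obtain ⟨X, hX⟩ : ∃ X : ℝ, X = (N : ℝ) ^ (1 / 50 : ℝ) := ⟨_, rfl⟩
  obtain ⟨hy3, hz2, hz3, hxy, hp4⟩ := sizes hB hκ hN2 hz hX
  rw [← hX] at hcard hmd hsm
  rw [← hp4] at hp2
  rw [← hLd] at hxy
  have hL2 : 1 ≤ L ^ 2 := one_le_pow₀ (by linarith)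
  have hL3 : L ^ 2 ≤ L ^ 3 := pow_le_pow_right₀ (by linarith) (by norm_num)
  have hXc : 2 * (c : ℝ) ≤ X :=
    (le_mul_of_one_le_right (by positivity) (hL2.trans hL3)).trans hsm
  have hXL : 2 * L ^ 2 ≤ X := by
    refine le_trans ?_ hsm
    rw [mul_assoc]
    exact mul_le_mul_of_nonneg_left (hL3.trans (le_mul_of_one_le_left (by positivity) hc1))
      (by norm_num)
  have hX1 : 1 ≤ X := by linarith
  have hq1 : (pw N (2 * η) : ℝ) ≤ 2 * X := by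
    have a1 : (pw N (2 * η) : ℝ) < (N : ℝ) ^ (2 * η) + 1 := Nat.ceil_lt_add_one (by positivity)
    have a2 : (N : ℝ) ^ (2 * η) ≤ X :=
      hX ▸ Real.rpow_le_rpow_of_exponent_le hN1.le (by linarith [hH.le])
    linarith
  have hQ : ((Q1s η N).card : ℝ) ≤ 2 * X := by
    refine le_trans ?_ hq1
    have : (Q1s η N).card ≤ pw N (2 * η) :=
      (card_filter_le _ _).trans (by rw [Nat.card_Ico]; omega)
    exact_mod_cast this
  have s1 : ∀ t ∈ MT r (ell N), ∀ q ∈ Q1s η N,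
      ((pairs p (md t * (c * q)) (N / p + 1)).card : ℝ) ≤
        16 * Real.exp (2 * CM + 2 * (c + 3)) / (κ * L) ^ 2 * N * (1 / p) *
          (1 / (md t : ℝ) * (1 / (q : ℝ))) + X ^ 5 := by
    intro t ht q hq
    obtain ⟨⟨-, a1⟩, a2⟩ := mem_prm.1 hq
    exact pair_le hU hCM hM hl hr ht hH.hc a2 (le_trans (by exact_mod_cast a1.le) hq1) (hmd t ht)
      hXc hz2 hz3 hp2 hy3 (mul_pos hκ0 hL0) hxy hp hpp
  have hE0 : 0 < Real.exp (2 * CM + 2 * (c + 3)) := Real.exp_pos _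
  generalize Real.exp (2 * CM + 2 * (c + 3)) = E at *
  have s2 : ∑ t ∈ MT r (ell N), ∑ q ∈ Q1s η N,
      ((pairs p (md t * (c * q)) (N / p + 1)).card : ℝ) ≤
        16 * E / (κ * L) ^ 2 * N * (1 / p) * (V * th1 η N) + X * (2 * X * X ^ 5) := by
    refine (sum_le_sum fun t ht => sum_le_sum fun q hq => s1 t ht q hq).trans ?_
    simp only [sum_add_distrib, sum_const, nsmul_eq_mul]
    refine add_le_add (le_of_eq ?_) (by gcongr)
    rw [hV, VV, th1, sum_mul_sum, mul_sum]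
    exact sum_congr rfl fun t _ => by rw [mul_sum]
  have s3 : X * (2 * X * X ^ 5) ≤ V * (N / p / L ^ 2) := by
    refine err_le hX1 hL0 hV1 (hp2.trans ?_) hXL
    rw [le_div_iff₀ hp0]
    exact_mod_cast hpp
  have s4 : V * th1 η N ≤ V := mul_le_of_le_one_right (by linarith) hth
  refine (Tp_le_pairs hN2 hp hp3).trans (s2.trans ?_)
  calc _ ≤ 16 * E / (κ * L) ^ 2 * N * (1 / p) * V + V * (N / p / L ^ 2) := by gcongr
    _ = _ := by field_simp

end Mid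

open Mid in
theorem mid (h1 : SZ) (h2 : VVB) (h3 : FLG) : MID := by
  intro c u v η hH ε hε
  obtain ⟨C, hC, hS⟩ := h1 c u v η hH
  obtain ⟨B, hB, hU⟩ := up_of_flg h3
  obtain ⟨CM, hCM, hM⟩ := P023.mertens_two
  set κ : ℝ := 1 / (40 * B) with hκ
  have hκ0 : 0 < κ := by
    have hB0 : (1 : ℝ) ≤ B := by exact_mod_cast hB
    rw [hκ]; positivity
  set A : ℝ := 16 * Real.exp (2 * CM + 2 * (c + 3)) / κ ^ 2 + 1 with hA
  have hA0 : 0 < A := by positivity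
  have hC0 : 0 < C := by linarith
  set e2 : ℝ := min (1 / 20) (ε / (9 * (A * C))) with he2
  have he0 : 0 < e2 := lt_min (by norm_num) (by positivity)
  have he1 : e2 ≤ 1 / 20 := min_le_left _ _
  have he3 : 9 * (A * C) * e2 ≤ ε := by
    have := min_le_right (1 / 20 : ℝ) (ε / (9 * (A * C)))
    rw [← he2, le_div_iff₀ (by positivity)] at this
    linarith
  refine ⟨e2, he0, by linarith, fun r => ?_⟩
  have hlog : Tendsto (fun N : ℕ => Real.log N) atTop atTop :=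
    Real.tendsto_log_atTop.comp tendsto_natCast_atTop_atTop
  have hell : Tendsto ell atTop atTop :=
    tendsto_nat_ceil_atTop.comp (Real.tendsto_log_atTop.comp hlog)
  have hpow : Tendsto (fun N : ℕ => (N : ℝ) ^ κ) atTop atTop :=
    (tendsto_rpow_atTop hκ0).comp tendsto_natCast_atTop_atTop
  filter_upwards [hS r, h2 r (1 / 50) (by norm_num), small (2 * c) (show (0 : ℝ) < 1 / 50 by norm_num),
    hlog.eventually_ge_atTop (max 10 (4 * CM / e2)), eventually_ge_atTop 2,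
    hell.eventually_ge_atTop (r + 1), hpow.eventually_ge_atTop 100]
    with N hS hV hsm hL hN2 hl hz
  obtain ⟨hV1, -, -, hcard, hmd, -⟩ := hV
  obtain ⟨-, -, hth, hK, -⟩ := hS
  set L := Real.log N with hLd
  set V := VV r (ell N) with hV
  have hL10 : 10 ≤ L := (le_max_left _ _).trans hL
  have hLM : 4 * CM / e2 ≤ L := (le_max_right _ _).trans hL
  have hL0 : 0 < L := by linarith
  refine (sum_le_sum fun p hp => Tp_le hH hU hB hCM hM hκ he1 hLd hL10 hN2 hV hV1 hth hcard hmd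
    (by omega) (by omega) hz hsm hp).trans ?_
  rw [← sum_filter, ← mul_sum, ← hA]
  have m4 := mer_le hM he0 he1 hLd hL10 hLM hN2
  have m5 : 0 ≤ V := by linarith
  have m6 : 0 ≤ C * KK c v η r N := le_trans (by positivity) hK
  have m7 : 0 ≤ KK c v η r N := nonneg_of_mul_nonneg_right m6 hC0
  calc A * V * ((N : ℝ) / L ^ 2) * _ ≤ A * V * ((N : ℝ) / L ^ 2) * (9 * e2) :=
        mul_le_mul_of_nonneg_left m4 (by positivity)
    _ = 9 * A * e2 * (V / L) * ((N : ℝ) / L) := by ring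
    _ ≤ 9 * A * e2 * (C * KK c v η r N) * ((N : ℝ) / L) := by gcongr
    _ = (9 * (A * C) * e2) * KK c v η r N * ((N : ℝ) / L) := by ring
    _ ≤ _ := by gcongr

end Vale.Agent.P016Z.Pr
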