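import Vale.Agent.P016Z.Pr.Pth0
import Vale.Agent.P005Z.PT.Main

/-!
P016, block PRIMES: `θ(y; q, a)` with a power saving.
-/

namespace Vale.Agent.P016Z.Pr

theorem pth : PTH := pth_of Vale.Agent.P005Z.PT.qrh

end Vale.Agent.P016Z.Pr
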