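import Vale.Agent.P016Z.Pr.SiftA

/-!
P016, block PRIMES: the sifted term of the Buchstab identity.
-/

open Finset Filter

namespace Vale.Agent.P016Z.Pr

open Vale.Agent.P005Z Vale.Agent.P005Z.SiftAux

namespace SiftA

theorem pth' (h : PTH) : ∃ c : ℝ, 0 < c ∧ c ≤ 1 ∧ ∃ C : ℝ, 0 < C ∧ ∀ (x q a : ℕ) (y Z : ℝ),
    1 ≤ q → Nat.Coprime a q → 1 ≤ y → y ≤ Z → x ≤ Z →
    |thAP x q a - (x : ℝ) / (Nat.totient q : ℝ)| ≤ C * (Z / y ^ c) * (1 + Real.log q) ^ 2 := by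
  obtain ⟨c, hc, C, hC, h⟩ := h
  refine ⟨min c 1, lt_min hc one_pos, min_le_right _ _, C, hC, fun x q a y Z hq ha hy hyZ hx => ?_⟩
  have hZ : 0 < Z := by linarith
  rcases Nat.eq_zero_or_pos x with rfl | hx0
  · have : thAP 0 q a = 0 := by
      refine sum_eq_zero fun p hp => ?_
      have h1 := mem_prm.1 (mem_filter.1 hp).1
      have := h1.2.2.pos
      omega
    simp only [this, Nat.cast_zero, zero_div, sub_zero, abs_zero]
    positivity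
  · refine (h x q a hx0 hq ha).trans ?_
    have hx1 : (1 : ℝ) ≤ x := by exact_mod_cast hx0
    gcongr
    calc (x : ℝ) ^ (1 - c) ≤ (x : ℝ) ^ (1 - min c 1) :=
          Real.rpow_le_rpow_of_exponent_le hx1 (by linarith [min_le_left c 1])
      _ ≤ Z ^ (1 - min c 1) :=
          Real.rpow_le_rpow (by linarith) hx (by linarith [min_le_right c 1])
      _ = Z / Z ^ min c 1 := by rw [Real.rpow_sub hZ, Real.rpow_one]
      _ ≤ Z / y ^ min c 1 := by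
          have := lt_min hc one_pos
          gcongr

theorem prime_coprime {p v : ℕ} (hp : p.Prime) (hv : 0 < v) (h : v < p) : p.Coprime v :=
  (Nat.Prime.coprime_iff_not_dvd hp).2 fun h1 => absurd (Nat.le_of_dvd hv h1) (by omega)

theorem band_coprime {l i p v : ℕ} (hv : 0 < v) (hl : v ≤ l) (hp : p ∈ band l i) :
    p.Coprime v := by
  obtain ⟨h1, -, h2⟩ := mem_prm.1 hp
  refine prime_coprime h2 hv (lt_of_lt_of_le ?_ h1)
  have h3 : l ≤ l ^ (i + 2) := Nat.le_self_pow (by omega) l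
  have h4 := Nat.lt_two_pow_self (n := 2 * l ^ (i + 2))
  omega

theorem md_coprime {r l v : ℕ} (hv : 0 < v) (hl : v ≤ l) {t : ℕ × (Fin r → ℕ)}
    (ht : t ∈ MT r l) : (md t).Coprime v := by
  unfold MT at ht
  rw [mem_product, Fintype.mem_piFinset] at ht
  exact Nat.Coprime.mul_left (band_coprime hv hl ht.1)
    (Nat.Coprime.prod_left fun c _ => band_coprime hv hl (ht.2 c))

theorem sift_one {c u v N b z r : ℕ} {η : ℝ} (H : HC c u v η) (hN : 1 ≤ N) (hF : FG b z)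
    (hL : 0 < Real.log N) {G : ℝ} (hG : 0 ≤ G)
    (hcop : ∀ t ∈ MT r (ell N), ∀ q ∈ Q1s η N, (md t * q).Coprime v)
    (hE : ∀ t ∈ MT r (ell N), ∀ q ∈ Q1s η N, ∀ d a : ℕ, 1 ≤ d → d ≤ z ^ (4 * b + 10) →
      a.Coprime (d * v) → |thAP ((N - 1) / (c * (md t * q))) (d * v) a -
        (((N - 1) / (c * (md t * q)) : ℕ) : ℝ) / (Nat.totient (d * v) : ℝ)| ≤
        G * (1 / (c * (md t * q : ℕ) : ℝ))) :
    (1 - Real.exp (-(b : ℝ))) * Pz c v z * N * DD c v η r N -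
      ((z : ℝ) ^ (4 * b + 11) * G * (VV r (ell N) * th1 η N / c) +
        (MT r (ell N)).card * (Q1s η N).card) / Real.log N ≤
      ∑ n ∈ rgs z 2 (N + 1), ff c u v η r N n := by
  have h1 : ∀ (t : ℕ × (Fin r → ℕ)) (q : ℕ), ∃ S : Finset ℕ, t ∈ MT r (ell N) → q ∈ Q1s η N →
      (∀ s ∈ S, s.Prime ∧ c * (md t * q) * s + 1 ∈ rgs z 2 (N + 1) ∧
        (c * (md t * q) * s + 1) % (c * v) = (c * u + 1) % (c * v)) ∧
      (1 - Real.exp (-(b : ℝ))) * Pz c v z * N / v.totient * (1 / (c * (md t * q : ℕ) : ℝ)) - 1 -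
        (z : ℝ) ^ (4 * b + 11) * (G * (1 / (c * (md t * q : ℕ) : ℝ))) ≤ ∑ s ∈ S, Real.log s := by
    intro t q
    by_cases h : t ∈ MT r (ell N) ∧ q ∈ Q1s η N
    · obtain ⟨S, hS⟩ := one_pair H (Nat.mul_pos (md_pos h.1) (mem_prm.1 h.2).2.2.pos)
        (hcop t h.1 q h.2) hN hF (by positivity) (hE t h.1 q h.2)
      exact ⟨S, fun _ _ => hS⟩
    · exact ⟨∅, fun h1 h2 => absurd ⟨h1, h2⟩ h⟩
  choose S hS using h1
  refine le_trans ?_ (sum_ff_ge H.hc η r N _ S fun t ht q hq => (hS t q ht hq).1)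
  simp only [← sum_div]
  have h2 := sum_le_sum fun t (ht : t ∈ MT r (ell N)) =>
    sum_le_sum fun q (hq : q ∈ Q1s η N) => (hS t q ht hq).2
  refine le_trans (le_of_eq ?_) (div_le_div_of_nonneg_right h2 hL.le)
  have h3 : ∑ t ∈ MT r (ell N), ∑ q ∈ Q1s η N, 1 / (c * (md t * q : ℕ) : ℝ) =
      VV r (ell N) * th1 η N / c := by
    unfold VV th1
    rw [sum_mul_sum, sum_div]
    refine sum_congr rfl fun t _ => ?_
    rw [sum_div]
    refine sum_congr rfl fun q _ => ?_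
    push_cast
    ring
  simp only [sum_sub_distrib, ← mul_sum, sum_const, nsmul_eq_mul, h3, DD]
  ring

theorem final_ineq {K R S N W e L S0 S1 D0 y Z X ε : ℝ} (hK : K = D0 * S0) (hD : 0 ≤ D0)
    (hS0 : 0 ≤ S0) (hN : 0 ≤ N) (hW : 0 ≤ W) (he0 : 0 ≤ e) (he1 : e ≤ 1) (hL : 0 < L)
    (hy : L ≤ y) (hS : (1 - 2 / y) * S0 ≤ S1) (hR : R ≤ (1 + e) * (N * W) + Z)
    (h1 : (1 - e) * (S1 * W) * N * D0 - X * K ≤ S)
    (h2 : N * W * (2 * e + 2 / L) + Z + X ≤ ε * (N / L)) :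
    K * R - ε * K * (N / L) ≤ S := by
  have hK0 : 0 ≤ K := by rw [hK]; positivity
  have k1 : 2 / y ≤ 2 / L := div_le_div_of_nonneg_left (by norm_num) hL hy
  have k2 : (1 - 2 / L) * S0 ≤ S1 := le_trans (mul_le_mul_of_nonneg_right (by linarith) hS0) hS
  have k3 := mul_le_mul_of_nonneg_right k2
    (mul_nonneg (sub_nonneg.2 he1) (by positivity : 0 ≤ W * N * D0))
  have k4 := mul_le_mul_of_nonneg_left hR hK0
  have k5 := mul_le_mul_of_nonneg_left h2 hK0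
  have k6 : 0 ≤ e * (2 / L) * (K * (N * W)) := by positivity
  rw [hK] at *
  nlinarith

theorem err_le {N L T D C C0 C' ε ε₁ e W Z z1 A : ℝ} (hL : 1 ≤ L) (hT : 0 < T) (hN : 0 < N)
    (hε : 0 < ε) (hC : 0 ≤ C) (hC0 : 0 ≤ C0) (hD : 0 ≤ D) (he : 0 ≤ e)
    (hW : W ≤ C' / ε₁ / L) (h1 : 2 * e * (C' / ε₁) ≤ ε / 4) (h2 : 8 * (C' / ε₁) / ε ≤ L)
    (hZ : Z ≤ D * T) (hz1 : z1 ≤ D * T) (hTT : T * T ≤ N) (hA : A * T ≤ N)
    (h3 : 2 / ε * (D + C * (9 * D * C0 + 1)) * L ^ 3 ≤ T) :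
    N * W * (2 * e + 2 / L) + Z + C * (z1 * (C0 * (N / (T * T)) * (3 * L) ^ 2) + A) ≤
      ε * (N / L) := by
  have hL0 : 0 < L := by linarith
  have hL2 : 1 ≤ L ^ 2 := one_le_pow₀ hL
  have k1 : 2 / L * (C' / ε₁) ≤ ε / 4 := by
    rw [div_le_iff₀ hε] at h2
    rw [div_mul_eq_mul_div, div_le_iff₀ hL0]
    linarith
  have k2 : N * W * (2 * e + 2 / L) ≤ ε / 2 * (N / L) := by
    calc N * W * (2 * e + 2 / L) ≤ N * (C' / ε₁ / L) * (2 * e + 2 / L) := by gcongr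
      _ = (2 * e * (C' / ε₁) + 2 / L * (C' / ε₁)) * (N / L) := by ring
      _ ≤ (ε / 4 + ε / 4) * (N / L) := by gcongr
      _ = _ := by ring
  have k3 : T ≤ N / T * L ^ 2 :=
    ((le_div_iff₀ hT).2 hTT).trans (le_mul_of_one_le_right (by positivity) hL2)
  have k4 : A ≤ N / T * L ^ 2 :=
    ((le_div_iff₀ hT).2 hA).trans (le_mul_of_one_le_right (by positivity) hL2)
  have k5 : z1 * (C0 * (N / (T * T)) * (3 * L) ^ 2) ≤ 9 * D * C0 * (N / T * L ^ 2) := by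
    refine (mul_le_mul_of_nonneg_right hz1 (by positivity)).trans (le_of_eq ?_)
    field_simp
    ring
  have k6 : (D + C * (9 * D * C0 + 1)) * (N / T * L ^ 2) ≤ ε / 2 * (N / L) := by
    have k7 : (D + C * (9 * D * C0 + 1)) * (N / T * L ^ 2) =
        ε / 2 * (N / L) * (2 / ε * (D + C * (9 * D * C0 + 1)) * L ^ 3 / T) := by
      field_simp
    rw [k7]
    exact mul_le_of_le_one_right (by positivity) ((div_le_one hT).2 h3)
  have k8 := mul_le_mul_of_nonneg_left k3 hD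
  have k9 := mul_le_mul_of_nonneg_left (add_le_add k5 k4) hC
  linarith

theorem pair_err {c0 C0 T : ℝ} (hC0 : 0 < C0)
    (h0 : ∀ (x q a : ℕ) (y Z : ℝ), 1 ≤ q → Nat.Coprime a q → 1 ≤ y → y ≤ Z → x ≤ Z →
      |thAP x q a - (x : ℝ) / (Nat.totient q : ℝ)| ≤ C0 * (Z / y ^ c0) * (1 + Real.log q) ^ 2)
    {N c e d v a : ℕ} (hN : 1 ≤ N) (hL : 1 ≤ Real.log N) (hc : 0 < c) (he : 0 < e) (hd : 1 ≤ d)
    (hv : 0 < v) (hdN : d ≤ N) (hvN : v ≤ N) (ha : a.Coprime (d * v))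
    (hTT : T * T = ((N : ℝ) ^ (1 / 2 : ℝ)) ^ c0) (hM : (N : ℝ) ^ (1 / 2 : ℝ) * (c * e) ≤ N) :
    |thAP ((N - 1) / (c * e)) (d * v) a - (((N - 1) / (c * e) : ℕ) : ℝ) / (Nat.totient (d * v) : ℝ)|
      ≤ C0 * (N / (T * T)) * (3 * Real.log N) ^ 2 * (1 / (c * e : ℝ)) := by
  have hN1 : (1 : ℝ) ≤ N := by exact_mod_cast hN
  have hN0 : (0 : ℝ) < N := by linarith
  have k0 : (0 : ℝ) < c * e := by exact_mod_cast Nat.mul_pos hc he
  have k2 : ((d * v : ℕ) : ℝ) ≤ N * N := by exact_mod_cast Nat.mul_le_mul hdN hvN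
  have k5 : (1 : ℝ) ≤ (d * v : ℕ) := by exact_mod_cast Nat.mul_pos hd hv
  have k6 : 1 + Real.log (d * v : ℕ) ≤ 3 * Real.log N := by
    have := Real.log_le_log (by linarith) k2
    rw [Real.log_mul hN0.ne' hN0.ne'] at this
    linarith
  have k7 := Real.log_nonneg k5
  refine (h0 _ _ a ((N : ℝ) ^ (1 / 2 : ℝ)) (N / (c * e)) (Nat.mul_pos hd hv) ha
    (Real.one_le_rpow hN1 (by norm_num)) ?_ ?_).trans ?_
  · rwa [le_div_iff₀ k0]
  · rw [le_div_iff₀ k0]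
    exact_mod_cast (Nat.div_mul_le_self _ _).trans (Nat.sub_le N 1)
  · rw [← hTT]
    have := mul_self_nonneg T
    calc C0 * (N / (c * e) / (T * T)) * (1 + Real.log (d * v : ℕ)) ^ 2
        ≤ C0 * (N / (c * e) / (T * T)) * (3 * Real.log N) ^ 2 := by gcongr
      _ = _ := by ring

theorem tail_le {X V th c a b U L C K : ℝ} (hX : 0 ≤ X) (hV : 1 ≤ V) (h0 : 0 ≤ th) (h1 : th ≤ 1)
    (hc : 1 ≤ c) (ha : a ≤ U) (hb0 : 0 ≤ b) (hb : b ≤ U) (hL : 0 < L) (hK : V / L ≤ C * K) :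
    (X * (V * th / c) + a * b) / L ≤ C * (X + U * U) * K := by
  have hU : 0 ≤ U := hb0.trans hb
  have k1 : V * th / c ≤ V := (div_le_self (mul_nonneg (by linarith) h0) hc).trans
    (mul_le_of_le_one_right (by linarith) h1)
  have k2 : a * b ≤ U * U * V :=
    (mul_le_mul ha hb hb0 hU).trans (le_mul_of_one_le_right (by positivity) hV)
  calc (X * (V * th / c) + a * b) / L ≤ (X * V + U * U * V) / L := by gcongr
    _ = (X + U * U) * (V / L) := by ring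
    _ ≤ (X + U * U) * (C * K) := by gcongr
    _ = _ := by ring

theorem powers {N c0 : ℝ} (hN1 : 1 ≤ N) (hc1 : c0 ≤ 1) :
    N ^ (c0 / 4) * N ^ (c0 / 4) = (N ^ (1 / 2 : ℝ)) ^ c0 ∧ N ^ (c0 / 4) * N ^ (c0 / 4) ≤ N ∧
      N ^ (1 / 10 : ℝ) * N ^ (1 / 10 : ℝ) * N ^ (c0 / 4) ≤ N ∧
      N ^ (1 / 2 : ℝ) * (N ^ (1 / 10 : ℝ) * (N ^ (1 / 10 : ℝ) * N ^ (1 / 10 : ℝ))) ≤ N := by
  have hN0 : 0 < N := by linarith
  refine ⟨?_, ?_, ?_, ?_⟩
  · rw [← Real.rpow_add hN0, ← Real.rpow_mul hN0.le]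
    congr 1
    ring
  · rw [← Real.rpow_add hN0]
    exact Real.rpow_le_self_of_one_le hN1 (by linarith)
  · rw [← Real.rpow_add hN0, ← Real.rpow_add hN0]
    exact Real.rpow_le_self_of_one_le hN1 (by linarith)
  · rw [← Real.rpow_add hN0, ← Real.rpow_add hN0, ← Real.rpow_add hN0]
    exact Real.rpow_le_self_of_one_le hN1 (by norm_num)

theorem Q1s_le {η : ℝ} (hη : η ≤ 1 / 100) {N : ℕ} (hN : 1 ≤ N) :
    (∀ q ∈ Q1s η N, (q : ℝ) ≤ (N : ℝ) ^ (1 / 10 : ℝ)) ∧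
      ((Q1s η N).card : ℝ) ≤ (N : ℝ) ^ (1 / 10 : ℝ) := by
  have hN1 : (1 : ℝ) ≤ N := by exact_mod_cast hN
  have hq : ∀ q ∈ Q1s η N, (q : ℝ) ≤ (N : ℝ) ^ (1 / 10 : ℝ) := fun q hq =>
    (Nat.lt_ceil.1 (mem_prm.1 hq).2.1).le.trans
      (Real.rpow_le_rpow_of_exponent_le hN1 (by linarith))
  refine ⟨hq, ?_⟩
  have k1 : Q1s η N ⊆ Icc 1 ⌊(N : ℝ) ^ (1 / 10 : ℝ)⌋₊ := fun q h =>
    mem_Icc.2 ⟨(mem_prm.1 h).2.2.pos, Nat.le_floor (hq q h)⟩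
  have k2 := card_le_card k1
  rw [Nat.card_Icc, Nat.add_sub_cancel] at k2
  exact le_trans (by exact_mod_cast k2) (Nat.floor_le (by positivity))

theorem level {N b : ℕ} {ε₁ c0 : ℝ} (hN : 1 ≤ N) (h : ε₁ * (4 * (b : ℝ) + 11) = c0 / 4)
    (e1 : 100 ≤ (N : ℝ) ^ ε₁) : 100 ≤ pw N ε₁ ∧
      (pw N ε₁ : ℝ) ^ (4 * b + 10) ≤ 2 ^ (4 * b + 11) * (N : ℝ) ^ (c0 / 4) ∧
      (pw N ε₁ : ℝ) ^ (4 * b + 11) ≤ 2 ^ (4 * b + 11) * (N : ℝ) ^ (c0 / 4) := by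
  have hN0 : (0 : ℝ) < N := by exact_mod_cast hN
  have hy1 : (N : ℝ) ^ ε₁ ≤ pw N ε₁ := Nat.le_ceil _
  have hy2 : (pw N ε₁ : ℝ) ≤ 2 * (N : ℝ) ^ ε₁ := by
    have := Nat.ceil_lt_add_one (by positivity : 0 ≤ (N : ℝ) ^ ε₁)
    unfold pw
    linarith
  have hy3 : 100 ≤ pw N ε₁ := by exact_mod_cast (by linarith : (100 : ℝ) ≤ pw N ε₁)
  have z1 : (pw N ε₁ : ℝ) ^ (4 * b + 11) ≤ 2 ^ (4 * b + 11) * (N : ℝ) ^ (c0 / 4) := by
    refine (pow_le_pow_left₀ (Nat.cast_nonneg _) hy2 _).trans (le_of_eq ?_)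
    rw [mul_pow, ← Real.rpow_natCast ((N : ℝ) ^ ε₁), ← Real.rpow_mul hN0.le, ← h]
    push_cast
    rfl
  exact ⟨hy3, (pow_le_pow_right₀ (by exact_mod_cast (by omega : 1 ≤ pw N ε₁)) (by omega)).trans z1,
    z1⟩

theorem choice (b₀ : ℕ) {ε c0 C' : ℝ} (hε : 0 < ε) (hc0 : 0 < c0) (hc1 : c0 ≤ 1) (hC' : 0 < C') :
    ∃ (b : ℕ) (ε₁ : ℝ), b₀ ≤ b ∧ 0 < ε₁ ∧ ε₁ < 1 / 10 ∧ ε₁ * (4 * (b : ℝ) + 11) = c0 / 4 ∧
      2 * Real.exp (-(b : ℝ)) * (C' / ε₁) ≤ ε / 4 := by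
  obtain ⟨b, hb, hbe⟩ := exists_b b₀ (c := ε * c0 / (64 * C')) (by positivity)
  have hb0 := Nat.cast_nonneg (α := ℝ) b
  refine ⟨b, c0 / (4 * (4 * (b : ℝ) + 11)), hb, by positivity, ?_, by field_simp, ?_⟩
  · rw [div_lt_div_iff₀ (by positivity) (by norm_num)]
    linarith
  · rw [le_div_iff₀ (by positivity)] at hbe
    have : C' / (c0 / (4 * (4 * (b : ℝ) + 11))) = C' * (4 * (4 * (b : ℝ) + 11)) / c0 := by
      field_simp
    rw [this, ← mul_div_assoc, div_le_iff₀ hc0]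
    have := mul_pos (Real.exp_pos (-(b : ℝ))) hC'
    nlinarith

end SiftA

open SiftA in
theorem sift (h0 : PTH) (h1 : SZ) (h2 : VVB) (h3 : FLC) (h4 : FLG) : SIFT := by
  intro c u v η H ε hε
  obtain ⟨c0, hc0, hc1, C0, hC0, h0⟩ := pth' h0
  obtain ⟨C, hC, h1⟩ := h1 c u v η H
  obtain ⟨b₀, h3⟩ := h3
  obtain ⟨b₁, h4⟩ := h4
  obtain ⟨C', hC', hW⟩ := Wz_le
  obtain ⟨b, ε₁, hb, hε₁0, hε₁1, hε₁c, f1⟩ := choice (max b₀ b₁) hε hc0 hc1 hC'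
  refine ⟨ε₁, hε₁0, hε₁1, fun r => ?_⟩
  have hell : Tendsto ell atTop atTop :=
    tendsto_nat_ceil_atTop.comp (Real.tendsto_log_atTop.comp Rsw.tendsto_L)
  have hc4 : 0 < c0 / 4 := by positivity
  filter_upwards [h1 r, h2 r (1 / 10) (by norm_num), Rsw.tendsto_L.eventually_ge_atTop 1,
    Rsw.tendsto_L.eventually_ge_atTop (8 * (C' / ε₁) / ε), Rsw.ev_pow 100 1 hε₁0,
    Rsw.ev_pow (2 ^ (4 * b + 11)) 0 hc4, Rsw.ev_pow c 0 (by norm_num : (0 : ℝ) < 1 / 10),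
    Rsw.ev_pow (v + 1) 0 H.pos,
    Rsw.ev_pow (2 / ε * (2 ^ (4 * b + 11) + C * (9 * 2 ^ (4 * b + 11) * C0 + 1))) 3 hc4,
    hell.eventually_ge_atTop v, eventually_ge_atTop v, eventually_ge_atTop 1]
    with N s1 s2 hL hL' e1 e2 e3 e4 e5 hlv hvN hN
  obtain ⟨-, t1, t2, t3, -, t4⟩ := s1
  obtain ⟨v1, -, -, v2, v3, -⟩ := s2
  rw [pow_zero, mul_one] at e2 e3 e4
  rw [pow_one] at e1
  have hN1 : (1 : ℝ) ≤ N := by exact_mod_cast hN
  have hN0 : (0 : ℝ) < N := by linarith only [hN1]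
  have hL0 : 0 < Real.log N := by linarith only [hL]
  have hy1 : (N : ℝ) ^ ε₁ ≤ pw N ε₁ := Nat.le_ceil _
  have hy4 : ⌈Real.log N⌉₊ ≤ pw N ε₁ := Nat.ceil_mono (by linarith only [hL, e1])
  obtain ⟨hy3, z0, z1⟩ := level hN hε₁c (by linarith only [hL, e1])
  obtain ⟨hTT, hTN, hUT, hUN⟩ := powers hN1 hc1
  obtain ⟨hq, hQ⟩ := Q1s_le H.le hN
  have hT0 : 0 < (N : ℝ) ^ (c0 / 4) := by positivity
  have hzN : pw N ε₁ ^ (4 * b + 10) ≤ N := by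
    exact_mod_cast z0.trans ((mul_le_mul_of_nonneg_right e2 hT0.le).trans hTN)
  have hc1' : (1 : ℝ) ≤ c := by exact_mod_cast H.hc
  have main := sift_one (r := r) H hN (h4 b (le_of_max_le_right hb) _ hy3) hL0
    (G := C0 * (N / ((N : ℝ) ^ (c0 / 4) * (N : ℝ) ^ (c0 / 4))) * (3 * Real.log N) ^ 2)
    (by positivity)
    (fun t ht q hq => Nat.Coprime.mul_left (md_coprime H.hv hlv ht)
      (prime_coprime (mem_prm.1 hq).2.2 H.hv (by
        have k1 : (v : ℝ) + 1 ≤ q := e4.trans (Nat.ceil_le.1 (mem_prm.1 hq).1)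
        exact_mod_cast k1)))
    (fun t ht q hq' d a hd hdz ha => pair_err hC0 h0 hN hL H.hc
      (Nat.mul_pos (md_pos ht) (mem_prm.1 hq').2.2.pos) hd H.hv (hdz.trans hzN) hvN ha hTT (by
        refine le_trans (mul_le_mul_of_nonneg_left ?_ (by positivity)) hUN
        rw [Nat.cast_mul]
        exact mul_le_mul e3 (mul_le_mul (v3 t ht) (hq q hq') (Nat.cast_nonneg _) (by positivity))
          (by positivity) (by positivity)))
  have t0 : 0 ≤ th1 η N := by linarith only [t1]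
  have hDD : 0 ≤ DD c v η r N := by
    unfold DD
    have : 0 ≤ VV r (ell N) := by linarith only [v1]
    positivity
  have he1 : Real.exp (-(b : ℝ)) ≤ 1 := Real.exp_le_one_iff.2 (by simp)
  have e6 : Wz (pw N ε₁) ≤ C' / ε₁ / Real.log N := by
    rw [div_div]
    refine (hW _ (by omega)).trans (div_le_div_of_nonneg_left hC'.le (by positivity) ?_)
    rw [← Real.log_rpow hN0]
    exact Real.log_le_log (by positivity) hy1
  rw [Pz_eq] at main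
  exact final_ineq rfl hDD (SS_nonneg H.even v _) hN0.le (Wz_nonneg _) (Real.exp_pos _).le he1 hL0
    (Nat.le_ceil _) (t4 _ _ le_rfl hy4).2 (card_rgs_le (h3 b (le_of_max_le_left hb) _ hy3) hN)
    (le_trans (sub_le_sub_left (tail_le (by positivity) v1 t0 t2 hc1' v2 (Nat.cast_nonneg _) hQ
      hL0 t3) _) main)
    (err_le hL hT0 hN0 hε (by linarith only [hC]) hC0.le (by positivity) (Real.exp_pos _).le e6
      f1 hL' z0 z1 hTN hUT e5)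

end Vale.Agent.P016Z.Pr
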