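import Vale.Agent.P005Z.Sum5
import Vale.Agent.P016Z.Pr.Cnt

/-!
P016, block PRIMES: the Type II range of the Buchstab identity.
-/

open Finset Filter

namespace Vale.Agent.P016Z.Pr

open Vale.Agent.P005Z Vale.Agent.P005Z.S5

namespace PS

theorem errs {C C₁ κ V L N ε S W Y : ℝ} {K : ℕ} (hC : 1 ≤ C) (hκ : V / L ≤ C * κ) (hκ0 : 0 ≤ κ)
    (hV : 1 ≤ V) (hL : 2 ≤ L) (hN : 0 ≤ N) (he : 0 < ε)
    (hK : (4 * C ^ 2 + 11 * C₁ + 4 * C) / ε ≤ L)
    (hS : S ≤ C₁) (hW : W ≤ Y * V) (hY : Y ≤ 2 * N / L ^ 4) (hK1 : K ≤ L ^ 3) :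
    2 * L * (C * W) + κ * (11 * (N / L ^ 2) * S) +
      ((K + 1 : ℕ) : ℝ) * (2 * L * (N / L ^ 8)) ≤ ε * κ * (N / L) := by
  have hL0 : 0 < L := by linarith
  have e1 : 2 * L * (C * W) ≤ 4 * C ^ 2 * (κ * (N / L ^ 2)) := by
    calc _ ≤ 2 * L * (C * (2 * N / L ^ 4 * V)) := by
          gcongr
          exact hW.trans (by gcongr)
      _ = 4 * C * (V / L) * (N / L ^ 2) := by field_simp; ring
      _ ≤ 4 * C * (C * κ) * (N / L ^ 2) := by gcongr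
      _ = _ := by ring
  have e2 : κ * (11 * (N / L ^ 2) * S) ≤ 11 * C₁ * (κ * (N / L ^ 2)) := by
    calc _ ≤ κ * (11 * (N / L ^ 2) * C₁) := by gcongr
      _ = _ := by ring
  have e3 : ((K + 1 : ℕ) : ℝ) * (2 * L * (N / L ^ 8)) ≤ 4 * C * (κ * (N / L ^ 2)) := by
    have a2 : 1 ≤ L ^ 3 := one_le_pow₀ (by linarith)
    have a3 : 1 / L ^ 2 ≤ V / L := by
      rw [div_le_div_iff₀ (by positivity) hL0]
      nlinarith
    calc _ ≤ 2 * L ^ 3 * (2 * L * (N / L ^ 8)) := by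
          gcongr
          push_cast
          linarith
      _ = 4 * (1 / L ^ 2) * (N / L ^ 2) := by field_simp; ring
      _ ≤ 4 * (C * κ) * (N / L ^ 2) := by gcongr; exact a3.trans hκ
      _ = _ := by ring
  have e4 : (4 * C ^ 2 + 11 * C₁ + 4 * C) * (κ * (N / L ^ 2)) ≤ ε * κ * (N / L) := by
    calc _ ≤ L * ε * (κ * (N / L ^ 2)) := by gcongr; exact (div_le_iff₀ he).1 hK
      _ = _ := by field_simp
  linarith

theorem shift (f : ℕ → ℝ) {p y B u : ℕ} (hp : 0 < p) (hB : 0 < B) :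
    ∑ m ∈ rgs y B u, f (p * m - 1 + 1) = ∑ m ∈ rgs y B u, f (p * m) := by
  refine sum_congr rfl fun m hm => ?_
  rw [Nat.sub_add_cancel (Nat.mul_pos hp (hB.trans_le (mem_rgs.1 hm).1))]

end PS

theorem sum_of (h1 : SZ) (h2 : VVB) (h3 : GRP) : SUM := by
  intro c u v η hb ε₁ ε₂ ε he1 he2 he
  have hδ : 0 < min ε₁ ε₂ := lt_min he1 he2
  obtain ⟨r, hr⟩ := h3 c u v η hb _ hδ 8
  obtain ⟨C, hC, hF⟩ := h1 c u v η hb
  obtain ⟨C₁, hC₁, hS⟩ := sum_inv_le (lt_min he1 one_pos) (min_le_right _ _)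
  have tL : Tendsto (fun N : ℕ => Real.log N) atTop atTop :=
    Real.tendsto_log_atTop.comp tendsto_natCast_atTop_atTop
  refine ⟨r, ?_⟩
  filter_upwards [hr, hF r, hS, h2 r 1 one_pos, ev_log_pow 4 he2,
    ev_log_pow 4 (Real.log_pos one_lt_two), tL.eventually_ge_atTop 2,
    tL.eventually_ge_atTop ((4 * C ^ 2 + 11 * C₁ + 4 * C) / ε), eventually_ge_atTop 2]
    with N hr hF hS hV hl1 hl2 hL hK hN2
  have hN1 : (1 : ℝ) < N := by exact_mod_cast (by omega : 1 < N)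
  have hN0 : (0 : ℝ) < N := by linarith
  have hV1 := hV.1
  obtain ⟨hg, _, _, hκ, _⟩ := hF
  have hP : ∀ p ∈ prm (pw N ε₁) (pw N (1 / 2 - ε₂)),
      p.Prime ∧ (N : ℝ) ^ ε₁ ≤ p ∧ (p : ℝ) ≤ (N : ℝ) ^ (1 / 2 - ε₂) :=
    fun p hp => ⟨(mem_prm.1 hp).2.2, Nat.ceil_le.1 (mem_prm.1 hp).1,
      (Nat.lt_ceil.1 (mem_prm.1 hp).2.1).le⟩
  generalize prm (pw N ε₁) (pw N (1 / 2 - ε₂)) = P at hP
  obtain ⟨L, hLd⟩ : ∃ L, L = Real.log N := ⟨_, rfl⟩
  rw [← hLd] at hr hl1 hl2 hL hK hκ ⊢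
  have hL0 : 0 < L := by linarith
  have hκ0 : 0 ≤ KK c v η r N := by
    have a1 : 0 ≤ C * KK c v η r N := le_trans (by positivity) hκ
    exact nonneg_of_mul_nonneg_right a1 (by linarith) |> fun h => h
  have hv : ∀ n, 0 ≤ ff c u v η r N (n + 1) := fun n => ff_nonneg _ _ _ _ _ _ _
  have hpN : ∀ p ∈ P, (p : ℝ) ≤ N := fun p hp => (hP p hp).2.2.trans (by
    conv_rhs => rw [← Real.rpow_one N]
    exact Real.rpow_le_rpow_of_exponent_le hN1.le (by linarith))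
  have hI : 2 * L ^ 4 ≤ 2 ^ ⌈L⌉₊ := by
    refine hl2.trans ?_
    rw [Real.rpow_def_of_pos hN0, mul_comm, ← Real.rpow_def_of_pos two_pos, ← Real.rpow_natCast,
      ← hLd]
    exact Real.rpow_le_rpow_of_exponent_le one_le_two (Nat.le_ceil _)
  have hkey : ∀ p ∈ P, ⌊L ^ 2 * Real.log p⌋₊ ∈ range (⌊L ^ 3⌋₊ + 1) := by
    intro p hp
    refine mem_range.2 (Nat.lt_succ_of_le (Nat.floor_le_floor ?_))
    have : Real.log p ≤ L :=
      hLd ▸ Real.log_le_log (by exact_mod_cast (hP p hp).1.pos) (hpN p hp)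
    calc L ^ 2 * Real.log p ≤ L ^ 2 * L := by gcongr
      _ = _ := by ring
  have hD : 1 ≤ (N : ℝ) ^ min ε₁ ε₂ := Real.one_le_rpow hN1.le hδ.le
  have hr' : ∀ (A B w y : ℕ) (G : Finset ℕ), G ⊆ prm A (2 * A) → (N : ℝ) ^ min ε₁ ε₂ ≤ A →
      (A : ℝ) * (N : ℝ) ^ min ε₁ ε₂ ≤ B → (A : ℝ) * B ≤ N → (N : ℝ) ^ min ε₁ ε₂ ≤ y →
      w ≤ 2 * B → ∑ p ∈ G, ∑ m ∈ rgs y B w, ff c u v η r N (p * m - 1 + 1) ≤
        (1 + 1 / L ^ 2) * KK c v η r N * ((G.card : ℝ) * ((rgs y B w).card : ℝ)) + N / L ^ 8 := by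
    intro A B w y G a1 a2 a3 a4 a5 a6
    have a7 : (0 : ℝ) < B := lt_of_lt_of_le (mul_pos (by linarith) (by linarith)) a3
    rw [sum_congr rfl fun p hp => PS.shift (ff c u v η r N) (mem_prm.1 (a1 hp)).2.2.pos
      (by exact_mod_cast a7)]
    exact hr A B w y G a1 a2 a3 a4 a5 a6
  have hA := sum_le_sum fun j (_ : j ∈ range (⌊L ^ 3⌋₊ + 1)) =>
    fiber_le (fun n => ff c u v η r N (n + 1)) hv N (T := KK c v η r N) (E := N / L ^ 8) hL hκ0
      hD (by positivity) hI hr'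
      (P.filter fun p => ⌊L ^ 2 * Real.log p⌋₊ = j)
      (fun p hp => have h := hP p (mem_filter.1 hp).1
        ⟨h.1, (Real.rpow_le_rpow_of_exponent_le hN1.le (min_le_left _ _)).trans h.2.1,
          range_le hN1 hL0 hl1 (Nat.cast_nonneg p) h.2.2⟩)
      fun p hp q hq => (mem_filter.1 hp).2.trans (mem_filter.1 hq).2.symm
  rw [sum_add_distrib, sum_fiberwise_of_maps_to hkey, sum_fiberwise_of_maps_to hkey,
    sum_add_distrib, ← mul_sum, sum_add_distrib, ← mul_sum, sum_const, card_range,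
    nsmul_eq_mul, sum_congr rfl fun p hp => PS.shift (ff c u v η r N) (hP p hp).1.pos two_pos]
    at hA
  have hL4 : 16 ≤ L ^ 4 := le_trans (by norm_num) (pow_le_pow_left₀ two_pos.le hL 4)
  have hY1 : ⌊2 * N / L ^ 4⌋₊ + 1 ≤ N := by
    refine Nat.succ_le_of_lt ((Nat.floor_lt (by positivity)).2 ?_)
    rw [div_lt_iff₀ (by positivity), mul_comm]
    exact mul_lt_mul_of_pos_left (by linarith) hN0
  have hB := small_le (fun n => ff c u v η r N (n + 1)) (fun n => C * WW r (ell N) n) hv P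
    (fun p hp => (hP p hp).1) hY1 fun n hn =>
      PC.ff_le (n := n + 1) (by linarith) hg (Nat.succ_le_succ (mem_Icc.1 hn).1)
        (((mem_Icc.1 hn).2.trans (by omega)).trans (Nat.le_self_pow two_ne_zero N))
  rw [← mul_sum, ← hLd] at hB
  have hE := PS.errs hC hκ hκ0 hV1 hL hN0.le he hK
    (hS P fun p hp => ⟨(hP p hp).1,
      (Real.rpow_le_rpow_of_exponent_le hN1.le (min_le_left _ _)).trans (hP p hp).2.1,
      by exact_mod_cast hpN p hp⟩) (sum_WW_le r (ell N) ⌊2 * N / L ^ 4⌋₊)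
    (Nat.floor_le (by positivity)) (Nat.floor_le (a := L ^ 3) (by positivity))
  unfold Tp
  linarith

end Vale.Agent.P016Z.Pr
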