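import Vale.Agent.P016Z.Pr.Defs

/-! P016: sizes of the weights and of the densities. -/

open Finset Filter Topology

namespace Vale.Agent.P016Z.Pr

open Vale.Agent.P005Z Vale.Agent.P005

namespace Sz

lemma mem_prm {u v p : ℕ} : p ∈ prm u v ↔ (u ≤ p ∧ p < v) ∧ p.Prime := by
  rw [prm, mem_filter, mem_Ico]

lemma gg_le {c : ℕ} {η : ℝ} (hη : 0 < η) {N y : ℕ} (hN : 2 ≤ N) (hy : 1 ≤ y) (hy2 : y ≤ N ^ 2) :
    gg c η N y ≤ 4 / η := by
  have hN1 : (1 : ℝ) < N := by exact_mod_cast hN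
  have hl : 0 < Real.log N := Real.log_pos hN1
  have hy0 : (0 : ℝ) < y := by exact_mod_cast hy
  have hly : Real.log y ≤ 2 * Real.log N := by
    have h1 : (y : ℝ) ≤ (N : ℝ) ^ 2 := by exact_mod_cast hy2
    calc Real.log y ≤ Real.log ((N : ℝ) ^ 2) := Real.log_le_log hy0 h1
      _ = 2 * Real.log N := by rw [Real.log_pow]; norm_num
  set S := (Q1s η N).filter (fun q => c * q ∣ y ∧ (y / (c * q)).Prime) with hS
  have h1 : gg c η N y ≤ S.card • (2 : ℝ) := by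
    refine sum_le_card_nsmul _ _ _ fun q hq => ?_
    rw [div_le_iff₀ hl]
    refine le_trans (Real.log_le_log ?_ ?_) hly
    · exact_mod_cast (mem_filter.1 hq).2.2.pos
    · exact_mod_cast Nat.div_le_self _ _
  have hpr : ∀ q ∈ S, q.Prime := fun q hq => (mem_prm.1 (mem_filter.1 hq).1).2
  have h2 : ∏ q ∈ S, q ∣ y := Finset.prod_primes_dvd _ (fun q hq => (hpr q hq).prime)
    fun q hq => (Dvd.intro_left c rfl).trans (mem_filter.1 hq).2.1
  have h3 : ∑ q ∈ S, Real.log q ≤ Real.log y := by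
    rw [← Real.log_prod fun q hq => by exact_mod_cast (hpr q hq).ne_zero]
    refine Real.log_le_log (prod_pos fun q hq => by exact_mod_cast (hpr q hq).pos) ?_
    have h6 := (Nat.cast_le (α := ℝ)).2 (Nat.le_of_dvd hy h2)
    push_cast at h6
    exact h6
  have h4 : S.card • (η * Real.log N) ≤ ∑ q ∈ S, Real.log q := by
    refine card_nsmul_le_sum _ _ _ fun q hq => ?_
    rw [← Real.log_rpow (by linarith)]
    refine Real.log_le_log (by positivity) ?_
    exact Nat.ceil_le.1 (mem_prm.1 (mem_filter.1 hq).1).1.1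
  rw [nsmul_eq_mul] at h1 h4
  have h5 : (S.card : ℝ) * η ≤ 2 := by
    by_contra h
    push Not at h
    nlinarith
  rw [le_div_iff₀ hη]
  nlinarith

lemma th1_bd {η : ℝ} (hη : 0 < η) : ∀ᶠ N : ℕ in atTop, 1 / 2 ≤ th1 η N ∧ th1 η N ≤ 1 := by
  have h1 := D4.tendsto_mer hη (show η ≤ 2 * η by linarith)
  rw [mul_div_assoc, div_self hη.ne', mul_one] at h1
  have l1 := Real.log_two_gt_d9
  have l2 := Real.log_two_lt_d9
  have hpow : Tendsto (fun N : ℕ => (N : ℝ) ^ η) atTop atTop :=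
    (tendsto_rpow_atTop hη).comp tendsto_natCast_atTop_atTop
  have hpow2 : Tendsto (fun N : ℕ => (N : ℝ) ^ (2 * η)) atTop atTop :=
    (tendsto_rpow_atTop (by linarith)).comp tendsto_natCast_atTop_atTop
  filter_upwards [h1.eventually (lt_mem_nhds (show (0.65 : ℝ) < Real.log 2 by linarith)),
    h1.eventually (gt_mem_nhds (show Real.log 2 < 0.75 by linarith)),
    hpow.eventually_ge_atTop 10, hpow2.eventually_ge_atTop 10] with N a1 a2 a3 a4
  set A : ℝ := (N : ℝ) ^ η with hA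
  set B : ℝ := (N : ℝ) ^ (2 * η) with hB
  have key : ∀ (S T : Finset ℕ) (k : ℕ), 10 ≤ k → S ⊆ insert k T →
      ∑ p ∈ S, 1 / (p : ℝ) ≤ 1 / 10 + ∑ p ∈ T, 1 / (p : ℝ) := by
    intro S T k hk hST
    have b1 : ∑ p ∈ S, 1 / (p : ℝ) ≤ ∑ p ∈ insert k T, 1 / (p : ℝ) :=
      sum_le_sum_of_subset_of_nonneg hST fun p _ _ => by positivity
    have b2 : 1 / (k : ℝ) ≤ 1 / 10 :=
      one_div_le_one_div_of_le (by norm_num) (by exact_mod_cast hk)
    by_cases hkT : k ∈ T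
    · rw [insert_eq_of_mem hkT] at b1
      linarith
    · rw [sum_insert hkT] at b1
      linarith
  have c1 := Nat.ceil_le_floor_add_one A
  have c2 := Nat.ceil_le_floor_add_one B
  have c3 := Nat.floor_le_ceil A
  have c4 := Nat.floor_le_ceil B
  constructor
  · have := key ((Ioc ⌊A⌋₊ ⌊B⌋₊).filter Nat.Prime) (Q1s η N) ⌊B⌋₊
      (Nat.le_floor (by exact_mod_cast a4)) fun p hp => by
        rw [mem_filter, mem_Ioc] at hp
        rw [mem_insert, Q1s, mem_prm, pw, pw, ← hA, ← hB]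
        by_cases h : p = ⌊B⌋₊
        · exact Or.inl h
        · exact Or.inr ⟨by omega, hp.2⟩
    unfold D4.mer at a1
    unfold th1
    linarith
  · have := key (Q1s η N) ((Ioc ⌊A⌋₊ ⌊B⌋₊).filter Nat.Prime) ⌊A⌋₊
      (Nat.le_floor (by exact_mod_cast a3)) fun p hp => by
        rw [Q1s, mem_prm, pw, pw, ← hA, ← hB] at hp
        rw [mem_insert, mem_filter, mem_Ioc]
        by_cases h : p = ⌊A⌋₊
        · exact Or.inl h
        · exact Or.inr ⟨by omega, hp.2⟩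
    unfold D4.mer at a2
    unfold th1
    linarith

/-- the factor of the prime `p` -/
noncomputable def fac (p : ℕ) : ℝ := 1 - 1 / ((p : ℝ) - 1) ^ 2

lemma fac_bd {p : ℕ} (hp : 2 ≤ p) : 0 ≤ fac p ∧ fac p ≤ 1 := by
  have h1 : (2 : ℝ) ≤ p := by exact_mod_cast hp
  have h2 : (1 : ℝ) ≤ ((p : ℝ) - 1) ^ 2 := by nlinarith
  have h3 : 1 / ((p : ℝ) - 1) ^ 2 ≤ 1 := by rw [div_le_one (by linarith)]; exact h2
  have h4 : 0 ≤ 1 / ((p : ℝ) - 1) ^ 2 := by positivity
  unfold fac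
  constructor <;> linarith

lemma prod_fac_Ico {a : ℕ} (ha : 3 ≤ a) {b : ℕ} (hb : a ≤ b) :
    ∏ n ∈ Ico a b, fac n = ((a : ℝ) - 2) / (a - 1) * (((b : ℝ) - 1) / (b - 2)) := by
  have h1 : (3 : ℝ) ≤ a := by exact_mod_cast ha
  induction b, hb using Nat.le_induction with
  | base =>
    have : (a : ℝ) - 1 ≠ 0 := by linarith
    have : (a : ℝ) - 2 ≠ 0 := by linarith
    rw [Ico_self, prod_empty]
    field_simp
  | succ b hb ih =>
    have h2 : (a : ℝ) ≤ b := by exact_mod_cast hb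
    have : (b : ℝ) - 1 ≠ 0 := by linarith
    have : (b : ℝ) - 2 ≠ 0 := by linarith
    have e : ((b + 1 : ℕ) : ℝ) - 2 = b - 1 := by push_cast; ring
    have e' : ((b + 1 : ℕ) : ℝ) - 1 = b := by push_cast; ring
    rw [prod_Ico_succ_top hb, ih, fac, e, e']
    field_simp
    ring

lemma prod_fac_ge {a b : ℕ} (ha : 3 ≤ a) {S : Finset ℕ} (hS : S ⊆ Ico a b) :
    ((a : ℝ) - 2) / (a - 1) ≤ ∏ n ∈ S, fac n := by
  have h1 : (3 : ℝ) ≤ a := by exact_mod_cast ha
  have h2 : (a : ℝ) ≤ (max a b : ℕ) := by exact_mod_cast le_max_left a b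
  have h3 := prod_fac_Ico ha (le_max_left a b)
  have h4 : ∏ n ∈ Ico a (max a b), fac n ≤ ∏ n ∈ S, fac n :=
    prod_le_prod_of_subset_of_le_one (hS.trans (Ico_subset_Ico_right (le_max_right a b)))
      (fun n hn => (fac_bd (by have := (mem_Ico.1 hn).1; omega)).1)
      fun n hn _ => (fac_bd (by have := (mem_Ico.1 hn).1; omega)).2
  refine le_trans ?_ h4
  rw [h3]
  apply le_mul_of_one_le_right (div_nonneg (by linarith) (by linarith))
  rw [one_le_div (by linarith)]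
  linarith

/-- the product over the primes which divide `c v` -/
noncomputable def RR (c v y : ℕ) : ℝ :=
  ∏ p ∈ (prm 0 y).filter (fun p => p ∣ c * v), (1 - 1 / (p : ℝ))

lemma one_sub_bd {p : ℕ} (hp : 2 ≤ p) : 0 < 1 - 1 / (p : ℝ) ∧ 1 - 1 / (p : ℝ) ≤ 1 := by
  have h1 : (2 : ℝ) ≤ p := by exact_mod_cast hp
  have h2 : 1 / (p : ℝ) ≤ 1 / 2 := one_div_le_one_div_of_le (by norm_num) h1
  have h3 : 0 ≤ 1 / (p : ℝ) := by positivity
  constructor <;> linarith

lemma prod_Icc_eq (N : ℕ) (hN : 1 ≤ N) : ∏ n ∈ Icc 2 N, (1 - 1 / (n : ℝ)) = 1 / N := by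
  induction N, hN using Nat.le_induction with
  | base => simp
  | succ N hN ih =>
    rw [prod_Icc_succ_top (by omega), ih]
    have h1 : (0 : ℝ) < N := by exact_mod_cast hN
    push_cast
    field_simp
    ring

lemma RR_bd {c v : ℕ} (h : 0 < c * v) (y : ℕ) : 1 / ((c * v : ℕ) : ℝ) ≤ RR c v y ∧ RR c v y ≤ 1 := by
  constructor
  · rw [← prod_Icc_eq _ h]
    refine prod_le_prod_of_subset_of_le_one (fun p hp => ?_)
      (fun n hn => (one_sub_bd (mem_Icc.1 hn).1).1.le) fun n hn _ => (one_sub_bd (mem_Icc.1 hn).1).2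
    rw [mem_filter] at hp
    exact mem_Icc.2 ⟨(mem_prm.1 hp.1).2.two_le, Nat.le_of_dvd h hp.2⟩
  · exact prod_le_one (fun p hp => (one_sub_bd (mem_prm.1 (mem_filter.1 hp).1).2.two_le).1.le)
      fun p hp => (one_sub_bd (mem_prm.1 (mem_filter.1 hp).1).2.two_le).2

lemma SS_eq (c v y : ℕ) : SS c v y = (∏ p ∈ PP c v y, fac p) / RR c v y := by
  have h1 : ∏ p ∈ prm 0 y, (1 - 1 / (p : ℝ)) = RR c v y * ∏ p ∈ PP c v y, (1 - 1 / (p : ℝ)) :=
    (prod_filter_mul_prod_filter_not _ _ _).symm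
  have h2 : ∏ p ∈ PP c v y, (1 - 1 / ((p : ℝ) - 1)) =
      (∏ p ∈ PP c v y, fac p) * ∏ p ∈ PP c v y, (1 - 1 / (p : ℝ)) := by
    rw [← prod_mul_distrib]
    refine prod_congr rfl fun p hp => ?_
    have h3 : (2 : ℝ) ≤ p := by exact_mod_cast (mem_prm.1 (mem_filter.1 hp).1).2.two_le
    have : (p : ℝ) - 1 ≠ 0 := by linarith
    have : (p : ℝ) ≠ 0 := by linarith
    rw [fac]
    field_simp
    ring
  have h3 : ∏ p ∈ PP c v y, (1 - 1 / (p : ℝ)) ≠ 0 :=
    (prod_pos fun p hp => (one_sub_bd (mem_prm.1 (mem_filter.1 hp).1).2.two_le).1).ne'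
  rw [SS, h1, h2, mul_div_mul_right _ _ h3]

lemma PP_bd {c v : ℕ} (hc : Even c) (y : ℕ) :
    1 / 2 ≤ ∏ p ∈ PP c v y, fac p ∧ ∏ p ∈ PP c v y, fac p ≤ 1 := by
  constructor
  · have := prod_fac_ge (a := 3) (b := y) le_rfl (S := PP c v y) fun p hp => by
      rw [PP, mem_filter, mem_prm] at hp
      refine mem_Ico.2 ⟨?_, hp.1.1.2⟩
      have h2 := hp.1.2.two_le
      by_contra h
      have h3 : p = 2 := by omega
      exact hp.2 (h3 ▸ (even_iff_two_dvd.1 hc).mul_right v)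
    norm_num at this ⊢
    exact this
  · exact prod_le_one (fun p hp => (fac_bd (mem_prm.1 (mem_filter.1 hp).1).2.two_le).1)
      fun p hp => (fac_bd (mem_prm.1 (mem_filter.1 hp).1).2.two_le).2

lemma SS_bd {c v : ℕ} (hc : Even c) (h : 0 < c * v) (y : ℕ) :
    1 / 2 ≤ SS c v y ∧ SS c v y ≤ (c * v : ℕ) := by
  obtain ⟨a1, a2⟩ := PP_bd (v := v) hc y
  obtain ⟨b1, b2⟩ := RR_bd h y
  have h0 : (0 : ℝ) < (c * v : ℕ) := by exact_mod_cast h
  have b0 : 0 < RR c v y := lt_of_lt_of_le (by positivity) b1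
  rw [SS_eq]
  constructor
  · rw [le_div_iff₀ b0]
    linarith
  · rw [div_le_iff₀ b0]
    rw [div_le_iff₀ h0] at b1
    linarith

lemma SS_mono {c v : ℕ} (hc : Even c) (h : 0 < c * v) {y y' : ℕ} (hy : c * v < y) (hy' : y ≤ y') :
    SS c v y' ≤ SS c v y ∧ (1 - 2 / (y : ℝ)) * SS c v y ≤ SS c v y' := by
  have h2 : 2 ≤ c * v := Nat.le_of_dvd h ((even_iff_two_dvd.1 hc).mul_right v)
  have e1 : RR c v y' = RR c v y := by
    unfold RR
    congr 1
    ext p
    rw [mem_filter, mem_filter, mem_prm, mem_prm]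
    constructor
    · rintro ⟨⟨-, h1⟩, h3⟩
      have := Nat.le_of_dvd h h3
      exact ⟨⟨by omega, h1⟩, h3⟩
    · rintro ⟨⟨h0, h1⟩, h3⟩
      exact ⟨⟨by omega, h1⟩, h3⟩
  have hsub : PP c v y ⊆ PP c v y' := by
    intro p hp
    rw [PP, mem_filter, mem_prm] at hp ⊢
    exact ⟨⟨by omega, hp.1.2⟩, hp.2⟩
  have hd : PP c v y' \ PP c v y ⊆ Ico y y' := by
    intro p hp
    rw [Finset.mem_sdiff, PP, PP, mem_filter, mem_filter, mem_prm, mem_prm] at hp
    refine mem_Ico.2 ⟨?_, hp.1.1.1.2⟩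
    by_contra h0
    exact hp.2 ⟨⟨by omega, hp.1.1.2⟩, hp.1.2⟩
  have e2 : SS c v y' = (∏ p ∈ PP c v y' \ PP c v y, fac p) * SS c v y := by
    rw [SS_eq, SS_eq, e1, ← prod_sdiff hsub, mul_div_assoc]
  have a1 := prod_fac_ge (a := y) (by omega) hd
  have a2 : ∏ p ∈ PP c v y' \ PP c v y, fac p ≤ 1 :=
    prod_le_one (fun p hp => (fac_bd (by have := (mem_Ico.1 (hd hp)).1; omega)).1)
      fun p hp => (fac_bd (by have := (mem_Ico.1 (hd hp)).1; omega)).2
  have a3 : 0 ≤ SS c v y := le_trans (by norm_num) (SS_bd hc h y).1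
  have hy3 : (3 : ℝ) ≤ y := by exact_mod_cast (by omega : 3 ≤ y)
  have a4 : 1 - 2 / (y : ℝ) ≤ ((y : ℝ) - 2) / (y - 1) := by
    have : 1 - 2 / (y : ℝ) = ((y : ℝ) - 2) / y := by field_simp
    rw [this]
    exact div_le_div_of_nonneg_left (by linarith) (by linarith) (by linarith)
  rw [e2]
  exact ⟨mul_le_of_le_one_left a3 a2, mul_le_mul_of_nonneg_right (a4.trans a1) a3⟩

end Sz

open Sz

theorem sz' : SZ := by
  intro c u v η h
  have hcv : 0 < c * v := Nat.mul_pos h.hc h.hv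
  have hc1 : (1 : ℝ) ≤ c := by exact_mod_cast h.hc
  have hv1 : (1 : ℝ) ≤ v := by exact_mod_cast h.hv
  have hφ1 : (1 : ℝ) ≤ Nat.totient v := by exact_mod_cast Nat.totient_pos.2 h.hv
  have hφv : (Nat.totient v : ℝ) ≤ v := by exact_mod_cast Nat.totient_le v
  have hη := h.pos
  have hcv1 : (1 : ℝ) ≤ c * v := by nlinarith
  have hη4 : 0 ≤ 4 / η := by positivity
  refine ⟨4 / η + 4 * (c * v), by linarith, fun r => ?_⟩
  have hlog : Tendsto (fun N : ℕ => Real.log N) atTop atTop :=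
    Real.tendsto_log_atTop.comp tendsto_natCast_atTop_atTop
  filter_upwards [th1_bd hη, eventually_ge_atTop 2, hlog.eventually_gt_atTop ((c * v : ℕ) : ℝ)]
    with N hth hN hl
  have hl0 : 0 < Real.log N := Real.log_pos (by exact_mod_cast hN)
  obtain ⟨s1, s2⟩ := SS_bd h.even hcv ⌈Real.log N⌉₊
  have hV : 0 ≤ VV r (ell N) / Real.log N :=
    div_nonneg (sum_nonneg fun t _ => by positivity) hl0.le
  have eK : KK c v η r N = th1 η N * SS c v ⌈Real.log N⌉₊ / (c * Nat.totient v) *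
      (VV r (ell N) / Real.log N) := by
    rw [KK, DD]
    field_simp
  have hcφ : (0 : ℝ) < c * Nat.totient v := by positivity
  push_cast at s2
  refine ⟨fun y h1 h2 => (gg_le hη hN h1 h2).trans (by linarith), hth.1, hth.2, ?_, ?_,
    fun y y' h1 h2 => SS_mono h.even hcv ?_ h2⟩
  · rw [eK, ← mul_assoc]
    apply le_mul_of_one_le_left hV
    have a1 : 1 / 2 * (1 / 2) ≤ th1 η N * SS c v ⌈Real.log N⌉₊ :=
      mul_le_mul hth.1 s1 (by norm_num) (by linarith [hth.1])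
    rw [← mul_div_assoc, one_le_div hcφ]
    have a2 : (c : ℝ) * Nat.totient v ≤ c * v := by gcongr
    calc (c : ℝ) * Nat.totient v ≤ (4 / η + 4 * (c * v)) * (1 / 2 * (1 / 2)) := by linarith
      _ ≤ _ := mul_le_mul_of_nonneg_left a1 (by linarith)
  · rw [eK]
    refine mul_le_mul_of_nonneg_right ?_ hV
    have a1 : th1 η N * SS c v ⌈Real.log N⌉₊ ≤ 1 * (c * v) :=
      mul_le_mul hth.2 s2 (by linarith) (by norm_num)
    have a2 : (1 : ℝ) ≤ c * Nat.totient v := by nlinarith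
    calc th1 η N * SS c v ⌈Real.log N⌉₊ / (c * Nat.totient v)
        ≤ th1 η N * SS c v ⌈Real.log N⌉₊ :=
          div_le_self (mul_nonneg (by linarith [hth.1]) (by linarith)) a2
      _ ≤ _ := by linarith
  · exact lt_of_lt_of_le (Nat.lt_ceil.2 hl) h1

theorem sz (_h : VVB) : SZ := sz'

end Vale.Agent.P016Z.Pr
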