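import Vale.Agent.P016Z.Pr.Cnt
import Vale.Agent.P016Z.Pr.Mid
import Vale.Agent.P016Z.Pr.Grp
import Vale.Agent.P016Z.Pr.Flg
import Vale.Agent.P016Z.Pr.TI.Main
import Vale.Agent.P016Z.Pr.Pth
import Vale.Agent.P016Z.Pr.Sz
import Vale.Agent.P016Z.Pr.Sum
import Vale.Agent.P016Z.Pr.Sift
import Vale.Agent.P005Z.Fl
import Vale.Agent.P005Z.Tiiw
import Vale.Agent.P005Z.Sizes
import Vale.Agent.P005Z.Rsw
import Vale.Agent.P005Z.PT.Main
import Vale.Agent.P005Z.Cs.C
import Vale.Agent.P005Z.Maj.Main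
import Vale.Agent.P005Z.Min.Main

/-!
P016: the block PRIMES, assembled.
-/

namespace Vale.Agent.P016Z

open Vale.Agent.P005Z Pr

theorem primes : PRIMES :=
  primes_of sz' vvb (sift pth sz' vvb flc flg)
    (sum_of sz' vvb (grp sz' vvb flc flg (tiiw (tii_of Min.minor (Maj.major pt1))) (rsw pt0 flc)
      (Pr.ti pth sz' vvb)))
    (mid sz' vvb flg)

end Vale.Agent.P016Z
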