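import Vale.Agent.P016Z.Pr.Defs
import Vale.Agent.P005Z.Mid

/-!
P016, block PRIMES: a two-dimensional upper bound sieve.
-/

open Finset Filter

namespace Vale.Agent.P016Z.Pr

open Vale.Agent.P005Z Vale.Agent.P005Z.MidAux

namespace Mid

theorem card_mul_per {T : ℕ} (Q : ℕ → Prop) [DecidablePred Q] (hQ : Function.Periodic Q T)
    (k : ℕ) : ((range (k * T)).filter Q).card = k * ((range T).filter Q).card := by
  induction k with
  | zero => simp
  | succ k ih =>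
    have h1 := Nat.filter_Ico_card_eq_of_periodic (k * T) T Q hQ
    rw [Nat.count_eq_card_filter_range] at h1
    rw [Nat.succ_mul, Nat.succ_mul, ← ih, ← h1, range_eq_Ico, range_eq_Ico,
      ← Ico_union_Ico_eq_Ico (Nat.zero_le (k * T)) (Nat.le_add_right _ T), filter_union,
      card_union_of_disjoint]
    exact disjoint_filter_filter (Ico_disjoint_Ico_consecutive _ _ _)

theorem abs_card_per {T : ℕ} (hT : 0 < T) (Q : ℕ → Prop) [DecidablePred Q]
    (hQ : Function.Periodic Q T) (Y : ℕ) :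
    |(((range Y).filter Q).card : ℝ) - Y * (((range T).filter Q).card : ℝ) / T| ≤
      ((range T).filter Q).card := by
  have h1 : Y / T * T ≤ Y := Nat.div_mul_le_self Y T
  have h2 : Y ≤ (Y / T + 1) * T := by
    rw [mul_comm]; exact (Nat.lt_mul_div_succ Y hT).le
  have h3 : Y / T * ((range T).filter Q).card ≤ ((range Y).filter Q).card := by
    rw [← card_mul_per Q hQ]
    exact card_le_card (filter_subset_filter _ (range_subset_range.2 h1))
  have h4 : ((range Y).filter Q).card ≤ (Y / T + 1) * ((range T).filter Q).card := by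
    rw [← card_mul_per Q hQ]
    exact card_le_card (filter_subset_filter _ (range_subset_range.2 h2))
  set c := ((range T).filter Q).card
  set k := Y / T
  have hT0 : (0 : ℝ) < T := by exact_mod_cast hT
  have h1' : (k : ℝ) * T ≤ Y := by exact_mod_cast h1
  have h2' : (Y : ℝ) ≤ (k + 1) * T := by exact_mod_cast h2
  have h3' : (k : ℝ) * c ≤ ((range Y).filter Q).card := by exact_mod_cast h3
  have h4' : (((range Y).filter Q).card : ℝ) ≤ (k + 1) * c := by exact_mod_cast h4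
  have hc : (0 : ℝ) ≤ c := Nat.cast_nonneg c
  have h5 : (k : ℝ) * c ≤ Y * c / T := by
    rw [le_div_iff₀ hT0]; nlinarith
  have h6 : Y * (c : ℝ) / T ≤ (k + 1) * c := by
    rw [div_le_iff₀ hT0]; nlinarith
  rw [abs_le]
  constructor <;> linarith

theorem per_mod {T : ℕ} {Q : ℕ → Prop} (hQ : Function.Periodic Q T) (x : ℕ) : Q (x % T) ↔ Q x :=
  (hQ.map_mod_nat x).to_iff

theorem card_crt {a b : ℕ} (ha : 0 < a) (hb : 0 < b) (hab : a.Coprime b) (Q R : ℕ → Prop)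
    [DecidablePred Q] [DecidablePred R] (hQ : Function.Periodic Q a)
    (hR : Function.Periodic R b) :
    ((range (a * b)).filter (fun x => Q x ∧ R x)).card =
      ((range a).filter Q).card * ((range b).filter R).card := by
  rw [← card_product]
  refine card_bij (fun x _ => (x % a, x % b)) (fun x hx => ?_) (fun x hx y hy h => ?_)
    (fun u hu => ?_)
  · obtain ⟨-, h1, h2⟩ := mem_filter.1 hx
    exact mem_product.2 ⟨mem_filter.2 ⟨mem_range.2 (Nat.mod_lt _ ha), (per_mod hQ x).2 h1⟩,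
      mem_filter.2 ⟨mem_range.2 (Nat.mod_lt _ hb), (per_mod hR x).2 h2⟩⟩
  · have h1 : x ≡ y [MOD a * b] := (Nat.modEq_and_modEq_iff_modEq_mul hab).1
      ⟨congrArg Prod.fst h, congrArg Prod.snd h⟩
    exact Nat.ModEq.eq_of_lt_of_lt h1 (mem_range.1 (mem_filter.1 hx).1)
      (mem_range.1 (mem_filter.1 hy).1)
  · obtain ⟨h1, h2⟩ := mem_product.1 hu
    obtain ⟨h3, h4⟩ := mem_filter.1 h1
    obtain ⟨h5, h6⟩ := mem_filter.1 h2
    obtain ⟨x, hx1, hx2⟩ := Nat.chineseRemainder hab u.1 u.2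
    have e1 : x % (a * b) % a = u.1 := by
      rw [Nat.mod_mul_right_mod, hx1, Nat.mod_eq_of_lt (mem_range.1 h3)]
    have e2 : x % (a * b) % b = u.2 := by
      rw [Nat.mod_mul_left_mod, hx2, Nat.mod_eq_of_lt (mem_range.1 h5)]
    refine ⟨x % (a * b), mem_filter.2 ⟨mem_range.2 (Nat.mod_lt _ (Nat.mul_pos ha hb)), ?_, ?_⟩, ?_⟩
    · rw [← per_mod hQ, e1]; exact h4
    · rw [← per_mod hR, e2]; exact h6
    · rw [e1, e2]

/-- the sifted polynomial -/
def pol (p m : ℕ) : ℕ := m * (p * m - 1)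

theorem cast_pol (p m : ℕ) (hp : 1 ≤ p) : (pol p m : ℤ) = m * (p * m - 1) := by
  rcases Nat.eq_zero_or_pos m with rfl | hm
  · simp [pol]
  · rw [pol, Nat.cast_mul, Nat.cast_sub (Nat.mul_pos hp hm)]
    push_cast
    ring

theorem per_pol {p : ℕ} (hp : 1 ≤ p) (d : ℕ) : Function.Periodic (fun m => d ∣ pol p m) d := by
  intro m
  beta_reduce
  rw [← Int.natCast_dvd_natCast, ← Int.natCast_dvd_natCast (n := pol p m), cast_pol _ _ hp,
    cast_pol _ _ hp]
  refine propext (dvd_iff_dvd_of_dvd_sub ⟨p * (2 * m + d) - 1, ?_⟩)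
  push_cast
  ring

theorem per_lin (p M : ℕ) : Function.Periodic (fun m : ℕ => (M : ℤ) ∣ p * m - 1) M := by
  intro m
  refine propext (dvd_iff_dvd_of_dvd_sub ⟨p, ?_⟩)
  push_cast
  ring

theorem card_prime {p l : ℕ} (hp : 1 ≤ p) (hl : l.Prime) (hlp : ¬ l ∣ p) :
    ((range l).filter (fun m => l ∣ pol p m)).card = 2 := by
  have := Fact.mk hl
  have hp0 : (p : ZMod l) ≠ 0 := by rwa [Ne, ZMod.natCast_eq_zero_iff]
  have h1 : (range l).filter (fun m => l ∣ pol p m) = {0, (p : ZMod l)⁻¹.val} := by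
    ext m
    rw [mem_filter, mem_range, ← Int.natCast_dvd_natCast, cast_pol _ _ hp,
      ← ZMod.intCast_zmod_eq_zero_iff_dvd, mem_insert, mem_singleton]
    push_cast
    rw [mul_eq_zero, sub_eq_zero]
    constructor
    · rintro ⟨h1, h2 | h2⟩
      · left
        rw [ZMod.natCast_eq_zero_iff] at h2
        exact Nat.eq_zero_of_dvd_of_lt h2 h1
      · right
        rw [← eq_inv_of_mul_eq_one_right h2, ZMod.val_natCast, Nat.mod_eq_of_lt h1]
    · rintro (rfl | rfl)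
      · exact ⟨hl.pos, Or.inl Nat.cast_zero⟩
      · refine ⟨ZMod.val_lt _, Or.inr ?_⟩
        rw [ZMod.natCast_zmod_val, mul_inv_cancel₀ hp0]
  rw [h1, card_pair]
  intro h
  exact inv_ne_zero hp0 ((ZMod.val_eq_zero _).1 h.symm)

theorem card_lin_le (p : ℕ) {M : ℕ} :
    ((range M).filter (fun m : ℕ => (M : ℤ) ∣ p * m - 1)).card ≤ 1 := by
  refine card_le_one.2 fun x hx y hy => ?_
  obtain ⟨h1, h2⟩ := mem_filter.1 hx
  obtain ⟨h3, h4⟩ := mem_filter.1 hy
  have h5 : (M : ℤ) ∣ y - x := by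
    have e : (y - x : ℤ) = x * (p * y - 1) - y * (p * x - 1) := by ring
    rw [e]
    exact dvd_sub (h4.mul_left _) (h2.mul_left _)
  exact Nat.ModEq.eq_of_lt_of_lt (Nat.modEq_iff_dvd.2 h5) (mem_range.1 h1) (mem_range.1 h3)

theorem card_prod {p : ℕ} (hp : 1 ≤ p) (S : Finset ℕ) (hS : ∀ l ∈ S, l.Prime ∧ ¬ l ∣ p) :
    ((range (∏ l ∈ S, l)).filter (fun m => (∏ l ∈ S, l) ∣ pol p m)).card = 2 ^ S.card := by
  induction S using Finset.induction_on with
  | empty => simp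
  | insert l S hl ih =>
    have h1 := hS l (mem_insert_self l S)
    have h2 : ∀ l' ∈ S, l'.Prime ∧ ¬ l' ∣ p := fun l' h => hS l' (mem_insert_of_mem h)
    have h3 : l.Coprime (∏ l ∈ S, l) := Nat.Coprime.prod_right fun l' h =>
      (Nat.coprime_primes h1.1 (h2 l' h).1).2 fun e => hl (e ▸ h)
    rw [prod_insert hl, card_insert_of_notMem hl, pow_succ', ← ih h2, ← card_prime hp h1.1 h1.2,
      ← card_crt h1.1.pos (prod_pos fun l' h => (h2 l' h).1.pos) h3 _ _ (per_pol hp _)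
        (per_pol hp _)]
    refine congrArg card (filter_congr fun m _ => ⟨fun h => ⟨?_, ?_⟩, fun h => ?_⟩)
    · exact (dvd_mul_right _ _).trans h
    · exact (dvd_mul_left _ _).trans h
    · exact h3.mul_dvd_of_dvd_of_dvd h.1 h.2

theorem abs_count {p M d : ℕ} (hp : 1 ≤ p) (hM : 0 < M) (hd : Squarefree d)
    (h : ∀ l ∈ d.primeFactors, ¬ l ∣ p ∧ ¬ l ∣ M) (Y : ℕ) :
    |(((range Y).filter (fun m : ℕ => (M : ℤ) ∣ p * m - 1 ∧ d ∣ pol p m)).card : ℝ) -
      (((range M).filter (fun m : ℕ => (M : ℤ) ∣ p * m - 1)).card : ℝ) * (Y / M) *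
        ∏ l ∈ d.primeFactors, 2 / (l : ℝ)| ≤ d := by
  have hd0 : 0 < d := Nat.pos_of_ne_zero hd.ne_zero
  have e1 : ∏ l ∈ d.primeFactors, l = d := Nat.prod_primeFactors_of_squarefree hd
  have hc : M.Coprime d := by
    rw [← e1]
    exact Nat.Coprime.prod_right fun l hl =>
      ((Nat.Prime.coprime_iff_not_dvd (Nat.prime_of_mem_primeFactors hl)).2 (h l hl).2).symm
  have h1 := card_prod hp d.primeFactors
    (fun l hl => ⟨Nat.prime_of_mem_primeFactors hl, (h l hl).1⟩)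
  rw [e1] at h1
  have h2 := card_crt hM hd0 hc _ _ (per_lin p M) (per_pol hp d)
  rw [h1] at h2
  have h3 : Function.Periodic (fun m : ℕ => (M : ℤ) ∣ p * m - 1 ∧ d ∣ pol p m) (M * d) := by
    intro m
    have a1 := (per_lin p M).nat_mul d m
    have a2 := (per_pol hp d).nat_mul M m
    simp only [Nat.cast_id] at a1 a2
    rw [mul_comm d M] at a1
    simp only [a1, a2]
  have h4 := abs_card_per (Nat.mul_pos hM hd0) _ h3 Y
  rw [h2] at h4
  have h5 : 2 ^ d.primeFactors.card ≤ d := by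
    conv_rhs => rw [← e1]
    exact pow_card_le_prod _ _ _ fun l hl => (Nat.prime_of_mem_primeFactors hl).two_le
  have h6 : ∏ l ∈ d.primeFactors, 2 / (l : ℝ) = 2 ^ d.primeFactors.card / d := by
    rw [prod_div_distrib, prod_const, ← Nat.cast_prod, e1]
  have h7 := card_lin_le p (M := M)
  set c := ((range M).filter (fun m : ℕ => (M : ℤ) ∣ p * m - 1)).card
  have h8 : c * 2 ^ d.primeFactors.card ≤ d := by
    calc c * 2 ^ d.primeFactors.card ≤ 1 * d := Nat.mul_le_mul h7 h5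
      _ = d := one_mul d
  refine le_trans (le_of_eq ?_) (h4.trans (by exact_mod_cast h8))
  rw [h6]
  push_cast
  congr 2
  rw [div_mul_eq_div_div]
  ring

/-- upper sieve weights in dimension two -/
def UP (B : ℕ) : Prop := ∀ y : ℕ, 100 ≤ y → ∀ P : Finset ℕ, P ⊆ prm 5 y →
  ∃ (D : Finset ℕ) (lu : ℕ → ℝ),
    (∀ d ∈ D, Squarefree d ∧ (d : ℝ) ≤ (y : ℝ) ^ B ∧ d.primeFactors ⊆ P ∧ |lu d| ≤ 1) ∧
    (∀ m : ℕ, (if ∀ p ∈ P, ¬ p ∣ m then (1 : ℝ) else 0) ≤
      ∑ d ∈ D.filter (fun d => d ∣ m), lu d) ∧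
    ∑ d ∈ D, lu d * ∏ p ∈ d.primeFactors, 2 / (p : ℝ) ≤ 2 * ∏ p ∈ P, (1 - 2 / (p : ℝ))

theorem prod_nonneg_two {y : ℕ} {P : Finset ℕ} (hP : P ⊆ prm 5 y) :
    0 ≤ ∏ p ∈ P, (1 - 2 / (p : ℝ)) := by
  refine prod_nonneg fun p hp => ?_
  have h5 : (5 : ℝ) ≤ p := by exact_mod_cast (mem_prm.1 (hP hp)).1.1
  rw [sub_nonneg, div_le_one (by linarith)]
  linarith

theorem up_of_flg (h : FLG) : ∃ B : ℕ, 1 ≤ B ∧ UP B := by
  obtain ⟨b, hb⟩ := h
  refine ⟨4 * b + 10, by omega, fun y hy P hP => ?_⟩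
  obtain ⟨D, lu, ll, h1, h2, h3, -⟩ := hb b le_rfl y hy P (fun p hp => by
    obtain ⟨⟨-, a2⟩, a3⟩ := mem_prm.1 (hP hp)
    exact mem_prm.2 ⟨⟨Nat.zero_le _, a2⟩, a3⟩) (fun p => 2 / (p : ℝ)) (fun p hp => by
    have h5 : (5 : ℝ) ≤ p := by exact_mod_cast (mem_prm.1 (hP hp)).1.1
    refine ⟨by positivity, ?_, le_rfl⟩
    rw [div_le_div_iff₀ (by linarith) two_pos]
    linarith)
  refine ⟨D, lu, fun d hd => ⟨(h1 d hd).1, (h1 d hd).2.1, (h1 d hd).2.2.1, (h1 d hd).2.2.2.1⟩,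
    fun m => (h2 m).2, h3.trans (mul_le_mul_of_nonneg_right ?_ (prod_nonneg_two hP))⟩
  have : Real.exp (-(b : ℝ)) ≤ 1 := Real.exp_le_one_iff.2 (by simp)
  linarith

/-- the pairs of primes `m`, `(p m - 1) / M` -/
def pairs (p M Y : ℕ) : Finset ℕ :=
  (range Y).filter (fun m => m.Prime ∧ p ≤ m ∧ M ∣ p * m - 1 ∧ ((p * m - 1) / M).Prime)

theorem sieve {B : ℕ} (hU : UP B) {z p M : ℕ} (hz : 100 ≤ z) (hp : p.Prime) (hzp : z ≤ p)
    (hM : 0 < M) (hMz : M * z + 1 ≤ p * p) (Y : ℕ) :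
    ((pairs p M Y).card : ℝ) ≤ 2 * (Y / M) *
      ∏ l ∈ (prm 5 z).filter (fun l => ¬ l ∣ M), (1 - 2 / (l : ℝ)) + ((z : ℝ) ^ B) ^ 2 := by
  set P := (prm 5 z).filter (fun l => ¬ l ∣ M) with hP
  have hPs : P ⊆ prm 5 z := filter_subset _ _
  obtain ⟨D, lu, h1, h2, h3⟩ := hU z hz P hPs
  set T := (range Y).filter (fun m : ℕ => (M : ℤ) ∣ p * m - 1) with hT
  have s1 : ((pairs p M Y).card : ℝ) ≤
      ∑ m ∈ T, if ∀ l ∈ P, ¬ l ∣ pol p m then (1 : ℝ) else 0 := by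
    rw [← sum_filter, sum_const, nsmul_eq_mul, mul_one, Nat.cast_le]
    refine card_le_card fun m hm => ?_
    obtain ⟨a1, a2, a3, a4, a5⟩ := mem_filter.1 hm
    have a6 : 1 ≤ p * m := Nat.mul_pos hp.pos a2.pos
    refine mem_filter.2 ⟨mem_filter.2 ⟨a1, ?_⟩, fun l hl hd => ?_⟩
    · have := Int.natCast_dvd_natCast.2 a4
      rwa [Nat.cast_sub a6, Nat.cast_mul, Nat.cast_one] at this
    · obtain ⟨b1, b2⟩ := mem_filter.1 hl
      obtain ⟨⟨-, b3⟩, b4⟩ := mem_prm.1 b1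
      obtain ⟨q, hq⟩ := a4
      rw [hq, Nat.mul_div_cancel_left _ hM] at a5
      rw [pol, hq] at hd
      rcases (Nat.Prime.dvd_mul b4).1 hd with h | h
      · have := (Nat.prime_dvd_prime_iff_eq b4 a2).1 h
        omega
      · rcases (Nat.Prime.dvd_mul b4).1 h with h | h
        · exact b2 h
        · have e := (Nat.prime_dvd_prime_iff_eq b4 a5).1 h
          have c1 : M * q < M * z := Nat.mul_lt_mul_of_pos_left (e ▸ b3) hM
          have c2 : p * p ≤ p * m := Nat.mul_le_mul_left p a3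
          omega
  have s2 : ∑ m ∈ T, ∑ d ∈ D.filter (fun d => d ∣ pol p m), lu d = ∑ d ∈ D, lu d *
      (((range Y).filter (fun m : ℕ => (M : ℤ) ∣ p * m - 1 ∧ d ∣ pol p m)).card : ℝ) := by
    simp only [sum_filter]
    rw [sum_comm]
    refine sum_congr rfl fun d _ => ?_
    rw [← sum_filter, sum_const, nsmul_eq_mul, mul_comm, hT, filter_filter]
  set c : ℝ := (((range M).filter (fun m : ℕ => (M : ℤ) ∣ p * m - 1)).card : ℝ) with hc
  have hc1 : c ≤ 1 := by rw [hc]; exact_mod_cast card_lin_le p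
  have hc0 : 0 ≤ c := Nat.cast_nonneg _
  have s3 : ∀ d ∈ D, lu d *
      (((range Y).filter (fun m : ℕ => (M : ℤ) ∣ p * m - 1 ∧ d ∣ pol p m)).card : ℝ) ≤
      c * (Y / M) * (lu d * ∏ l ∈ d.primeFactors, 2 / (l : ℝ)) + (z : ℝ) ^ B := by
    intro d hd
    obtain ⟨a1, a2, a3, a4⟩ := h1 d hd
    have a5 := abs_count hp.pos hM a1 (fun l hl => by
      obtain ⟨b1, b2⟩ := mem_filter.1 (a3 hl)
      obtain ⟨⟨-, b3⟩, b4⟩ := mem_prm.1 b1
      refine ⟨fun h => ?_, b2⟩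
      have := (Nat.prime_dvd_prime_iff_eq b4 hp).1 h
      omega) Y
    rw [← hc] at a5
    set x := (((range Y).filter (fun m : ℕ => (M : ℤ) ∣ p * m - 1 ∧ d ∣ pol p m)).card : ℝ)
    set w := ∏ l ∈ d.primeFactors, 2 / (l : ℝ)
    have a6 : lu d * (x - c * (Y / M) * w) ≤ (z : ℝ) ^ B := by
      refine (le_abs_self _).trans ?_
      rw [abs_mul]
      exact (mul_le_of_le_one_left (abs_nonneg _) a4).trans (a5.trans a2)
    linarith
  have s4 : (D.card : ℝ) ≤ (z : ℝ) ^ B := by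
    have : D ⊆ Icc 1 (z ^ B) := fun d hd => mem_Icc.2
      ⟨Nat.pos_of_ne_zero (h1 d hd).1.ne_zero, by exact_mod_cast (h1 d hd).2.1⟩
    have h5 := card_le_card this
    rw [Nat.card_Icc, Nat.add_sub_cancel] at h5
    exact_mod_cast h5
  have hW := prod_nonneg_two hPs
  refine s1.trans ((sum_le_sum fun m _ => h2 (pol p m)).trans ?_)
  rw [s2]
  refine (sum_le_sum s3).trans ?_
  rw [sum_add_distrib, ← mul_sum, sum_const, nsmul_eq_mul, sq]
  have hY : (0 : ℝ) ≤ Y / M := by positivity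
  refine add_le_add ?_ (mul_le_mul_of_nonneg_right s4 (by positivity))
  calc c * (Y / M) * _ ≤ c * (Y / M) * (2 * ∏ l ∈ P, (1 - 2 / (l : ℝ))) :=
        mul_le_mul_of_nonneg_left h3 (mul_nonneg hc0 hY)
    _ ≤ 1 * (Y / M) * (2 * ∏ l ∈ P, (1 - 2 / (l : ℝ))) := by gcongr
    _ = _ := by ring

end Mid

end Vale.Agent.P016Z.Pr
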