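import Vale.Agent.P016Z.Pr.Defs
import Vale.Agent.P005Z.PT.Prime

/-!
P016, block PRIMES: `θ(y; q, a)` with a power saving, from the zero-free half plane.
-/

namespace Vale.Agent.P016Z.Pr

open Complex Finset ArithmeticFunction Vale.Agent.P005Z Vale.Agent.P005Z.PT

variable {χ : ℕ → ℂ} {c : ℂ} {G : ℂ → ℂ} {K Q : ℝ}

theorem psi_asym (D : LData χ c G K Q) (hK : 0 ≤ K) {y : ℕ} (hy : 1 ≤ y) :
    ‖∑ n ∈ Icc 1 y, χ n * (Λ n : ℝ) - c * y‖ ≤
      ((60 * cI * K + 192) * (1 + Real.log Q) + 2 * ‖c‖) * (y : ℝ) ^ (95 / 96 : ℝ) := by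
  set ℒ := 1 + Real.log Q with hℒ
  have hℒ1 : 1 ≤ ℒ := by linarith [Real.log_nonneg D.hQ]
  have hcI := cI_nonneg
  set a : ℕ → ℂ := fun n => χ n * (Λ n : ℝ) with ha
  have han : ∀ n, ‖a n‖ ≤ Λ n := fun n => by
    simp only [ha, norm_mul, Complex.norm_real, Real.norm_of_nonneg vonMangoldt_nonneg]
    exact mul_le_of_le_one_left vonMangoldt_nonneg (D.hχ n)
  have hsum : LSeriesSummable a (2 : ℝ) := by
    refine Summable.of_norm_bounded (LSeriesSummable_vonMangoldt (s := (2 : ℝ)) (by simp)).norm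
      fun n => LSeries.norm_term_le _ ?_
    simpa [Real.norm_of_nonneg vonMangoldt_nonneg] using han n
  have R := fun (z : ℕ) (hz : 1 ≤ z) => riesz a hsum (G := G) (c := c) (w := 1) one_re
    (B := 3 * K * ℒ) (σ := 23 / 24) (by norm_num) (by norm_num) D.hd
    (fun s h1 h2 => (D.hb _ h1 h2).trans (by
      have := mul_le_mul_of_nonneg_left (log_split (t := 0) (τ := s.im) D.hQ) hK
      simp only [add_zero, abs_zero, mul_one] at this
      linarith)) D.hL hz
  have hy1 : (1 : ℝ) ≤ y := by exact_mod_cast hy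
  have hy0 : (0 : ℝ) < y := by linarith
  set u : ℝ := (y : ℝ) ^ (47 / 48 : ℝ) with hu
  have hu1 : 1 ≤ u := Real.one_le_rpow hy1 (by norm_num)
  have huy : u ≤ y := by
    simpa using Real.rpow_le_rpow_of_exponent_le hy1 (show (47 / 48 : ℝ) ≤ 1 by norm_num)
  set h : ℕ := ⌊u⌋₊ with hh
  have hhu : (h : ℝ) ≤ u := Nat.floor_le (by linarith)
  have hh1 : (1 : ℝ) ≤ h := by exact_mod_cast Nat.floor_pos.mpr hu1
  have huh : u ≤ 2 * h := by linarith [Nat.lt_floor_add_one u]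
  have hlog : ∀ n ≤ y + h, ‖a n‖ ≤ 192 * (y : ℝ) ^ (1 / 96 : ℝ) := fun n hn => by
    have h1 : (n : ℝ) ≤ 2 * y := by
      have : (n : ℝ) ≤ y + h := by exact_mod_cast hn
      linarith
    have h2 := Real.log_le_rpow_div (Nat.cast_nonneg n) (show (0 : ℝ) < 1 / 96 by norm_num)
    have h3 : (n : ℝ) ^ (1 / 96 : ℝ) ≤ 2 * (y : ℝ) ^ (1 / 96 : ℝ) := by
      calc _ ≤ (2 * y : ℝ) ^ (1 / 96 : ℝ) := by gcongr
        _ = 2 ^ (1 / 96 : ℝ) * (y : ℝ) ^ (1 / 96 : ℝ) := Real.mul_rpow (by norm_num) hy0.le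
        _ ≤ _ := by
            gcongr
            simpa using Real.rpow_le_rpow_of_exponent_le one_le_two
              (show (1 / 96 : ℝ) ≤ 1 by norm_num)
    linarith [han n, vonMangoldt_le_log (n := n)]
  have d1 := desmooth a hlog
  have r1 := R y hy
  have r2 := R (y + h) (by omega)
  have p1 : ‖pole 1 (y + h : ℕ) - pole 1 y - h * y‖ ≤ h * (2 * u) := by
    have e : pole 1 (y + h : ℕ) - pole 1 y - h * y = ((h * (h / 2 - 1) : ℝ) : ℂ) := by
      simp only [pole, one_add_one_eq_two, cpow_two]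
      push_cast; ring
    rw [e, Complex.norm_real, Real.norm_eq_abs, abs_mul, abs_of_nonneg (Nat.cast_nonneg h)]
    gcongr
    rw [abs_le]; constructor <;> linarith
  have e1 : (y : ℝ) ^ (23 / 24 + 1 : ℝ) = u * u := by
    rw [hu, ← Real.rpow_add hy0]; norm_num
  have e2 : ((y + h : ℕ) : ℝ) ^ (23 / 24 + 1 : ℝ) ≤ 4 * (u * u) := by
    calc _ ≤ (2 * y : ℝ) ^ (23 / 24 + 1 : ℝ) := by
          gcongr; push_cast; linarith
      _ = 2 ^ (23 / 24 + 1 : ℝ) * (u * u) := by rw [Real.mul_rpow (by norm_num) hy0.le, e1]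
      _ ≤ _ := by
          gcongr
          have := Real.rpow_le_rpow_of_exponent_le one_le_two
            (show (23 / 24 + 1 : ℝ) ≤ 2 by norm_num)
          norm_num at this ⊢
          exact this
  have e3 : u * (y : ℝ) ^ (1 / 96 : ℝ) = (y : ℝ) ^ (95 / 96 : ℝ) := by
    rw [hu, ← Real.rpow_add hy0]; norm_num
  have e4 : u ≤ (y : ℝ) ^ (95 / 96 : ℝ) := Real.rpow_le_rpow_of_exponent_le hy1 (by norm_num)
  rw [e1] at r1
  set S := ∑ n ∈ Icc 1 y, a n
  set T1 := ∑ n ∈ Icc 1 y, a n * ((y : ℂ) - n)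
  set T2 := ∑ n ∈ Icc 1 (y + h), a n * (((y + h : ℕ) : ℂ) - n)
  set P1 := pole 1 y
  set P2 := pole 1 (y + h : ℕ)
  set v := (y : ℝ) ^ (95 / 96 : ℝ)
  set z := (y : ℝ) ^ (1 / 96 : ℝ)
  have hz0 : 0 ≤ z := by positivity
  have key : (h : ℝ) * ‖S - c * y‖ ≤ h * (h * (192 * z)) + 2 * cI * (3 * K * ℒ) * (4 * (u * u)) +
      2 * cI * (3 * K * ℒ) * (u * u) + ‖c‖ * (h * (2 * u)) := by
    have e : (h : ℂ) * (S - c * y) = (h * S - (T2 - T1)) + (T2 - c * P2) - (T1 - c * P1) +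
        c * (P2 - P1 - h * y) := by
      ring
    rw [← Complex.norm_natCast h, ← norm_mul, e, Complex.norm_natCast]
    refine (norm_add_le _ _).trans (add_le_add ((norm_sub_le _ _).trans (add_le_add
      ((norm_add_le _ _).trans (add_le_add d1 (r2.trans ?_))) r1)) ?_)
    · gcongr
    · rw [norm_mul]; gcongr
  refine le_of_mul_le_mul_left (key.trans ?_) (by linarith : (0 : ℝ) < h)
  have b1 : h * (192 * z) ≤ 192 * ℒ * v := by
    calc h * (192 * z) ≤ u * (192 * z) := by gcongr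
      _ = 192 * 1 * v := by rw [← e3]; ring
      _ ≤ _ := by gcongr
  have b2 : u * u ≤ 2 * h * v := by gcongr
  have b3 : 0 ≤ cI * K * ℒ := by positivity
  have b4 := mul_le_mul_of_nonneg_left b1 (Nat.cast_nonneg h)
  have b5 := mul_le_mul_of_nonneg_left b2 b3
  have b6 : ‖c‖ * (h * (2 * u)) ≤ ‖c‖ * (h * (2 * v)) := by gcongr
  nlinarith

theorem theta_asym (D : LData χ c G K Q) (hK : 0 ≤ K) {y : ℕ} (hy : 1 ≤ y) :
    ‖∑ p ∈ prm 0 (y + 1), χ p * (Real.log p : ℝ) - c * y‖ ≤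
      ((60 * cI * K + 192) * (1 + Real.log Q) + 2 * ‖c‖ + 8) * (y : ℝ) ^ (95 / 96 : ℝ) := by
  have h1 := theta_sub_psi χ D.hχ hy
  have h2 := psi_asym D hK hy
  have e : ∑ p ∈ prm 0 (y + 1), χ p * (Real.log p : ℝ) =
      ∑ n ∈ range (y + 1), (if n.Prime then (Real.log n : ℂ) * χ n else 0) := by
    rw [prm, sum_filter, range_eq_Ico]
    exact sum_congr rfl fun n _ => by rw [mul_comm]
  simp only [mul_comm (χ _) ((Λ _ : ℝ) : ℂ)] at h2
  rw [e]
  refine (norm_sub_le_norm_sub_add_norm_sub _ (∑ n ∈ Icc 1 y, (Λ n : ℝ) * χ n) _).trans ?_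
  linarith

theorem pth_of (h : QRH) : PTH := by
  have hcI := cI_nonneg
  have hK : 0 ≤ cK := by unfold cK; norm_num
  set A := 60 * cI * cK + 202 with hA
  have hA0 : 202 ≤ A := by rw [hA]; nlinarith [mul_nonneg hcI hK]
  refine ⟨1 / 96, by norm_num, 2 * A + 194, by linarith, fun y q a hy hq ha => ?_⟩
  have : NeZero q := ⟨by omega⟩
  have hl : 0 ≤ Real.log q := Real.log_natCast_nonneg q
  have hy1 : (1 : ℝ) ≤ y := by exact_mod_cast hy
  have hφ : (1 : ℝ) ≤ q.totient := by exact_mod_cast Nat.totient_pos.mpr (NeZero.pos q)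
  rw [show (1 - 1 / 96 : ℝ) = 95 / 96 by norm_num]
  set v := (y : ℝ) ^ (95 / 96 : ℝ) with hv
  have hv1 : 1 ≤ v := Real.one_le_rpow hy1 (by norm_num)
  set L := 1 + Real.log y with hL
  have hL1 : 1 ≤ L := by linarith [Real.log_natCast_nonneg y]
  have hLc : (L : ℂ) ≠ 0 := by exact_mod_cast (by linarith : L ≠ 0)
  have hLv : L ≤ 97 * v := by
    have h2 := Real.log_le_rpow_div (Nat.cast_nonneg y) (show (0 : ℝ) < 1 / 96 by norm_num)
    have h3 : (y : ℝ) ^ (1 / 96 : ℝ) ≤ v := Real.rpow_le_rpow_of_exponent_le hy1 (by norm_num)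
    linarith
  set f : ℕ → ℂ := fun n => (Real.log (min n y : ℕ) : ℝ) / (L : ℂ) with hf
  have hfp : ∀ p ∈ prm 0 (y + 1), f p = (Real.log p : ℝ) / (L : ℂ) := fun p hp => by
    have := (mem_Ico.mp (mem_filter.mp hp).1).2
    simp only [hf]; rw [min_eq_left (by omega)]
  have key := progression_sub ha (prm 0 (y + 1)) (fun p hp => (mem_filter.mp hp).2) f
    (fun n => by
      simp only [hf]
      rw [norm_div, Complex.norm_real, Complex.norm_real, Real.norm_of_nonneg
        (Real.log_natCast_nonneg _), Real.norm_of_nonneg (by linarith), div_le_one (by linarith)]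
      rcases Nat.eq_zero_or_pos n with rfl | hn
      · simp; linarith
      · have : Real.log (min n y : ℕ) ≤ Real.log y := Real.log_le_log
          (by exact_mod_cast lt_min hn hy) (by exact_mod_cast min_le_right n y)
        linarith)
    (E := A * (1 + Real.log q) * v / L) (by positivity) fun χ hχ => by
      have h1 := theta_asym (ldata_char h χ hχ) hK hy
      rw [sum_congr rfl fun p hp => by rw [hfp p hp, ← mul_div_assoc], ← sum_div, norm_div,
        Complex.norm_real, Real.norm_of_nonneg (by linarith)]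
      simp only [zero_mul, sub_zero, norm_zero, mul_zero, add_zero] at h1
      gcongr
      refine h1.trans ?_
      gcongr
      nlinarith
  rw [sum_congr rfl fun p hp => hfp p (mem_filter.mp hp).1, sum_congr rfl hfp, ← sum_div,
    ← sum_div, div_right_comm, ← sub_div, norm_div, Complex.norm_real,
    Real.norm_of_nonneg (by linarith), div_le_iff₀ (by linarith), add_mul,
    div_mul_cancel₀ _ (by linarith)] at key
  have h2 := theta_asym (ldata_zeta h) hK hy
  simp only [one_mul, Real.log_one, add_zero, mul_one, norm_one] at h2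
  have e : ((thAP y q a - (y : ℝ) / (q.totient : ℝ) : ℝ) : ℂ) =
      (∑ p ∈ (prm 0 (y + 1)).filter (fun p => p % q = a % q), ((Real.log p : ℝ) : ℂ) -
        (∑ p ∈ prm 0 (y + 1), ((Real.log p : ℝ) : ℂ)) / q.totient) +
      (∑ p ∈ prm 0 (y + 1), ((Real.log p : ℝ) : ℂ) - y) / q.totient := by
    rw [thAP, ofReal_sub, ofReal_sum, ofReal_div, ofReal_natCast, ofReal_natCast]; ring
  rw [← Real.norm_eq_abs, ← Complex.norm_real, e]
  refine (norm_add_le _ _).trans ?_
  have h3 : ‖(∑ p ∈ prm 0 (y + 1), ((Real.log p : ℝ) : ℂ) - y) / q.totient‖ ≤ A * v := by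
    rw [norm_div, Complex.norm_natCast]
    exact (div_le_self (norm_nonneg _) hφ).trans (h2.trans (le_of_eq (by rw [hA]; ring)))
  have l1 : 1 + Real.log q ≤ (1 + Real.log q) ^ 2 := by nlinarith
  have b1 : A * (1 + Real.log q) * v ≤ A * (1 + Real.log q) ^ 2 * v := by gcongr
  have b2 : A * 1 * v ≤ A * (1 + Real.log q) ^ 2 * v := by gcongr; linarith
  have b3 : 2 * Real.log q * L ≤ 2 * (1 + Real.log q) ^ 2 * (97 * v) := by gcongr; linarith
  nlinarith

end Vale.Agent.P016Z.Pr
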