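import Vale.Agent.P016Z.Pr.Defs
import Vale.Agent.P005Z.Sift
import Vale.Agent.P005Z.Rsw

/-!
P016, block PRIMES: lower sieve for the shifted primes `M q + 1`.
-/

open Finset Filter

namespace Vale.Agent.P016Z.Pr.SiftA

open Vale.Agent.P005Z Vale.Agent.P005Z.SiftAux

theorem inv_totient {d : ℕ} (hd : Squarefree d) :
    ∏ p ∈ d.primeFactors, 1 / ((p : ℝ) - 1) = 1 / (d.totient : ℝ) := by
  rw [Nat.totient_eq_div_primeFactors_mul, Nat.prod_primeFactors_of_squarefree hd,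
    Nat.div_self (Nat.pos_of_ne_zero hd.ne_zero), one_mul, Nat.cast_prod, prod_div_distrib,
    prod_const_one]
  congr 1
  refine prod_congr rfl fun p hp => ?_
  rw [Nat.cast_sub (Nat.prime_of_mem_primeFactors hp).one_le, Nat.cast_one]

theorem exists_class {M v a d : ℕ} (hd : 1 ≤ d) (hM : M.Coprime d) (hv : d.Coprime v)
    (ha : a.Coprime v) : ∃ a' : ℕ, a'.Coprime (d * v) ∧
      ∀ q, (q % v = a % v ∧ d ∣ M * q + 1) ↔ q % (d * v) = a' % (d * v) := by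
  obtain ⟨ρ, -, hρ⟩ := Nat.exists_mul_mod_eq_of_coprime (d - 1) hM (by omega)
  have h1 : M * ρ + 1 ≡ 0 [MOD d] := by
    have h2 : M * ρ + 1 ≡ d - 1 + 1 [MOD d] := Nat.ModEq.add_right 1 hρ
    rw [Nat.sub_add_cancel hd] at h2
    exact h2.trans (Nat.modEq_zero_iff_dvd.2 dvd_rfl)
  have h3 : ∀ q, d ∣ M * q + 1 ↔ q ≡ ρ [MOD d] := by
    intro q
    rw [← Nat.modEq_zero_iff_dvd]
    exact ⟨fun h => Nat.ModEq.cancel_left_of_coprime hM.symm
      (Nat.ModEq.add_right_cancel' 1 (h.trans h1.symm)),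
      fun h => (Nat.ModEq.add_right 1 (Nat.ModEq.mul_left M h)).trans h1⟩
  obtain ⟨a', h4, h5⟩ := Nat.chineseRemainder hv ρ a
  refine ⟨a', Nat.Coprime.mul_right ?_ ?_, fun q => ?_⟩
  · obtain ⟨k, hk⟩ := (h3 a').2 h4
    refine Nat.coprime_of_dvd fun p hp h6 h7 => hp.one_lt.ne' (Nat.dvd_one.1 ?_)
    exact (Nat.dvd_add_right (h6.mul_left M)).1 (hk ▸ h7.mul_right k)
  · rw [← ZMod.coprime_mod_iff_coprime, h5, ZMod.coprime_mod_iff_coprime]
    exact ha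
  · rw [h3]
    constructor
    · intro h
      exact (Nat.modEq_and_modEq_iff_modEq_mul hv).1
        ⟨h.2.trans h4.symm, Nat.ModEq.trans h.1 h5.symm⟩
    · intro h
      have h6 := (Nat.modEq_and_modEq_iff_modEq_mul hv).2 h
      exact ⟨h6.2.trans h5, h6.1.trans h4⟩

theorem sieve_theta {M v a Y : ℕ} {P D : Finset ℕ} {ll : ℕ → ℝ} {z E : ℝ} (hE0 : 0 ≤ E)
    (hP : ∀ p ∈ P, ¬ p ∣ M ∧ ¬ p ∣ v) (ha : a.Coprime v)
    (hD : ∀ d ∈ D, Squarefree d ∧ d.primeFactors ⊆ P ∧ |ll d| ≤ z)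
    (hll : ∀ m : ℕ, ∑ d ∈ D.filter (fun d => d ∣ m), ll d ≤
      (if ∀ p ∈ P, ¬ p ∣ m then (1 : ℝ) else 0))
    (hE : ∀ d ∈ D, ∀ a' : ℕ, a'.Coprime (d * v) →
      |thAP Y (d * v) a' - (Y : ℝ) / (Nat.totient (d * v) : ℝ)| ≤ E) :
    (Y : ℝ) / v.totient * (∑ d ∈ D, ll d * ∏ p ∈ d.primeFactors, 1 / ((p : ℝ) - 1)) -
      D.card * (z * E) ≤
      ∑ q ∈ (prm 0 (Y + 1)).filter (fun q => q % v = a % v ∧ ∀ p ∈ P, ¬ p ∣ M * q + 1),
        Real.log q := by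
  have h1 : ∑ d ∈ D, ll d * ∑ q ∈ (prm 0 (Y + 1)).filter
      (fun q => q % v = a % v ∧ d ∣ M * q + 1), Real.log q ≤
      ∑ q ∈ (prm 0 (Y + 1)).filter (fun q => q % v = a % v ∧ ∀ p ∈ P, ¬ p ∣ M * q + 1),
        Real.log q := by
    simp only [sum_filter, mul_sum]
    rw [sum_comm]
    refine sum_le_sum fun q _ => ?_
    by_cases hq : q % v = a % v
    · have h2 := mul_le_mul_of_nonneg_right (hll (M * q + 1)) (Real.log_natCast_nonneg q)
      rw [sum_filter, sum_mul] at h2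
      simpa only [hq, true_and, ite_mul, mul_ite, mul_zero, zero_mul, one_mul] using h2
    · simp [hq]
  refine le_trans ?_ h1
  rw [mul_sum, ← nsmul_eq_mul, ← sum_const, ← sum_sub_distrib]
  refine sum_le_sum fun d hd => ?_
  obtain ⟨h2, h3, h4⟩ := hD d hd
  have key : ∀ w : ℕ, (∀ p ∈ P, ¬ p ∣ w) → d.Coprime w := fun w hw =>
    Nat.coprime_of_dvd fun p hp h5 => hw p (h3 (Nat.mem_primeFactors.2 ⟨hp, h5, h2.ne_zero⟩))
  have hv := key v fun p hp => (hP p hp).2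
  obtain ⟨a', h5, h6⟩ := exists_class (Nat.pos_of_ne_zero h2.ne_zero)
    (key M fun p hp => (hP p hp).1).symm hv ha
  have h7 := hE d hd a' h5
  simp only [h6]
  rw [inv_totient h2]
  rw [Nat.totient_mul hv, Nat.cast_mul] at h7
  have h8 : |ll d * (thAP Y (d * v) a' - (Y : ℝ) / (d.totient * v.totient))| ≤ z * E := by
    rw [abs_mul]
    exact mul_le_mul h4 h7 (abs_nonneg _) ((abs_nonneg _).trans h4)
  have h9 : (Y : ℝ) / v.totient * (ll d * (1 / d.totient)) =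
      ll d * ((Y : ℝ) / (d.totient * v.totient)) := by ring
  have _ := hE0
  rw [h9]
  unfold thAP at h8
  linarith [(abs_le.1 h8).1]

/-- Double counting. -/
theorem sum_ff_ge {c u v : ℕ} (hc : 0 < c) (η : ℝ) (r N : ℕ) (R : Finset ℕ)
    (S : (ℕ × (Fin r → ℕ)) → ℕ → Finset ℕ)
    (hS : ∀ t ∈ MT r (ell N), ∀ q ∈ Q1s η N, ∀ s ∈ S t q, s.Prime ∧ c * (md t * q) * s + 1 ∈ R ∧
      (c * (md t * q) * s + 1) % (c * v) = (c * u + 1) % (c * v)) :
    ∑ t ∈ MT r (ell N), ∑ q ∈ Q1s η N, ∑ s ∈ S t q, Real.log s / Real.log N ≤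
      ∑ n ∈ R, ff c u v η r N n := by
  set φ : (ℕ × (Fin r → ℕ)) → ℕ → ℕ → ℝ := fun t q n =>
    if n % (c * v) = (c * u + 1) % (c * v) ∧ md t ∣ n - 1 ∧ c * q ∣ (n - 1) / md t ∧
      ((n - 1) / md t / (c * q)).Prime then
      Real.log (((n - 1) / md t / (c * q) : ℕ) : ℝ) / Real.log N else 0 with hφ
  have h0 : ∀ t q n, 0 ≤ φ t q n := by
    intro t q n
    simp only [hφ]
    split_ifs
    · exact div_nonneg (Real.log_natCast_nonneg _) (Real.log_natCast_nonneg _)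
    · exact le_rfl
  have h1 : ∀ n, ff c u v η r N n = ∑ t ∈ MT r (ell N), ∑ q ∈ Q1s η N, φ t q n := by
    intro n
    unfold ff gg
    by_cases h : n % (c * v) = (c * u + 1) % (c * v)
    · rw [if_pos h, sum_filter]
      refine sum_congr rfl fun t _ => ?_
      by_cases h2 : md t ∣ n - 1
      · simp only [hφ, h, h2, if_true, true_and, sum_filter]
      · simp [hφ, h2]
    · simp [hφ, h]
  simp only [h1]
  rw [sum_comm (s := R)]
  refine sum_le_sum fun t ht => ?_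
  rw [sum_comm (s := R)]
  refine sum_le_sum fun q hq => ?_
  have ht0 := md_pos ht
  have hq0 : 0 < q := (mem_prm.1 hq).2.2.pos
  have hM : 0 < c * (md t * q) := by positivity
  have h2 : ∑ s ∈ S t q, Real.log s / Real.log N =
      ∑ n ∈ (S t q).image (fun s => c * (md t * q) * s + 1), φ t q n := by
    rw [sum_image fun s _ s' _ h => Nat.eq_of_mul_eq_mul_left hM (Nat.add_right_cancel h)]
    refine sum_congr rfl fun s hs => ?_
    obtain ⟨h3, -, h4⟩ := hS t ht q hq s hs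
    have h5 : c * (md t * q) * s = md t * (c * q * s) := by ring
    have h6 : c * (md t * q) * s / md t = c * q * s := by
      rw [h5, Nat.mul_div_cancel_left _ ht0]
    have h7 : c * q * s / (c * q) = s := Nat.mul_div_cancel_left _ (by positivity)
    simp only [hφ, Nat.add_sub_cancel, h6, h7, h4, h3, dvd_mul_right, true_and, and_true]
    rw [if_pos (h5 ▸ dvd_mul_right _ _)]
  rw [h2]
  refine sum_le_sum_of_subset_of_nonneg (fun n hn => ?_) fun n _ _ => h0 t q n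
  obtain ⟨s, hs, rfl⟩ := mem_image.1 hn
  exact (hS t ht q hq s hs).2.1

theorem pp_three {c v y p : ℕ} (hc : Even c) (hp : p ∈ PP c v y) : (3 : ℝ) ≤ p := by
  obtain ⟨h1, h2⟩ := mem_filter.1 hp
  have h3 := (mem_prm.1 h1).2.2
  have h4 : p ≠ 2 := fun h => h2 (h ▸ (even_iff_two_dvd.1 hc).mul_right v)
  have := h3.two_le
  exact_mod_cast (by omega : 3 ≤ p)

theorem g_bounds {p : ℝ} (hp : 3 ≤ p) : 0 ≤ 1 / (p - 1) ∧ 1 / (p - 1) ≤ 1 / 2 ∧ 1 / (p - 1) ≤ 2 / p := by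
  refine ⟨div_nonneg zero_le_one (by linarith), ?_, ?_⟩
  · exact one_div_le_one_div_of_le (by norm_num) (by linarith)
  · rw [div_le_div_iff₀ (by linarith) (by linarith)]
    linarith

/-- the product over `PP` -/
noncomputable def Pz (c v y : ℕ) : ℝ := ∏ p ∈ PP c v y, (1 - 1 / ((p : ℝ) - 1))

theorem Pz_nonneg {c : ℕ} (hc : Even c) (v y : ℕ) : 0 ≤ Pz c v y :=
  prod_nonneg fun p hp => by linarith [(g_bounds (pp_three hc hp)).2.1]

theorem Pz_le_one {c : ℕ} (hc : Even c) (v y : ℕ) : Pz c v y ≤ 1 :=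
  prod_le_one (fun p hp => by linarith [(g_bounds (pp_three hc hp)).2.1])
    fun p hp => by linarith [(g_bounds (pp_three hc hp)).1]

theorem Wz_pos (y : ℕ) : 0 < Wz y := by
  refine prod_pos fun p hp => ?_
  have h1 : (2 : ℝ) ≤ p := by exact_mod_cast (mem_prm.1 hp).2.2.two_le
  have := one_div_le_one_div_of_le (by norm_num) h1
  linarith

theorem Pz_eq (c v y : ℕ) : Pz c v y = SS c v y * Wz y :=
  (div_mul_cancel₀ _ (Wz_pos y).ne').symm

theorem SS_nonneg {c : ℕ} (hc : Even c) (v y : ℕ) : 0 ≤ SS c v y :=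
  div_nonneg (Pz_nonneg hc v y) (Wz_pos y).le

/-- the statement of the fundamental lemma for given `b`, `y` -/
def FG (b y : ℕ) : Prop := ∀ P : Finset ℕ, P ⊆ prm 0 y →
  ∀ g : ℕ → ℝ, (∀ p ∈ P, 0 ≤ g p ∧ g p ≤ 1 / 2 ∧ g p ≤ 2 / (p : ℝ)) →
  ∃ (D : Finset ℕ) (lu ll : ℕ → ℝ),
    (∀ d ∈ D, Squarefree d ∧ (d : ℝ) ≤ (y : ℝ) ^ (4 * b + 10) ∧ d.primeFactors ⊆ P ∧
      |lu d| ≤ 1 ∧ |ll d| ≤ y) ∧
    (∀ m : ℕ, ∑ d ∈ D.filter (fun d => d ∣ m), ll d ≤ (if ∀ p ∈ P, ¬ p ∣ m then (1 : ℝ) else 0) ∧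
      (if ∀ p ∈ P, ¬ p ∣ m then (1 : ℝ) else 0) ≤ ∑ d ∈ D.filter (fun d => d ∣ m), lu d) ∧
    ∑ d ∈ D, lu d * ∏ p ∈ d.primeFactors, g p ≤ (1 + Real.exp (-(b : ℝ))) * ∏ p ∈ P, (1 - g p) ∧
    (1 - Real.exp (-(b : ℝ))) * ∏ p ∈ P, (1 - g p) ≤ ∑ d ∈ D, ll d * ∏ p ∈ d.primeFactors, g p

/-- One pair `(t, q₁)`, with `e = md t * q₁`. -/
theorem one_pair {c u v e N b z : ℕ} {η : ℝ} (H : HC c u v η) (he : 0 < e) (hev : e.Coprime v)
    (hN : 1 ≤ N) (hF : FG b z) {E : ℝ} (hE0 : 0 ≤ E)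
    (hE : ∀ d a : ℕ, 1 ≤ d → d ≤ z ^ (4 * b + 10) → a.Coprime (d * v) →
      |thAP ((N - 1) / (c * e)) (d * v) a -
        (((N - 1) / (c * e) : ℕ) : ℝ) / (Nat.totient (d * v) : ℝ)| ≤ E) :
    ∃ S : Finset ℕ, (∀ s ∈ S, s.Prime ∧ c * e * s + 1 ∈ rgs z 2 (N + 1) ∧
      (c * e * s + 1) % (c * v) = (c * u + 1) % (c * v)) ∧
      (1 - Real.exp (-(b : ℝ))) * Pz c v z * N / v.totient * (1 / (c * e : ℝ)) - 1 -
        (z : ℝ) ^ (4 * b + 11) * E ≤ ∑ s ∈ S, Real.log s := by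
  obtain ⟨a, -, ha⟩ := Nat.exists_mul_mod_eq_of_coprime u hev H.hv.ne'
  have hav : a.Coprime v := by
    have h1 : (e * a).Coprime v := by
      rw [← ZMod.coprime_mod_iff_coprime, ha, ZMod.coprime_mod_iff_coprime]
      exact H.cop
    exact Nat.Coprime.coprime_mul_left h1
  set P := (PP c v z).filter (fun p => ¬ p ∣ e) with hP
  have hPP : P ⊆ PP c v z := filter_subset _ _
  obtain ⟨D, lu, ll, h1, h2, -, h3⟩ := hF P (hPP.trans (filter_subset _ _))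
    (fun p => 1 / ((p : ℝ) - 1)) fun p hp => g_bounds (pp_three H.even (hPP hp))
  set Y := (N - 1) / (c * e) with hY
  have hM : 0 < c * e := Nat.mul_pos H.hc he
  have h4 := sieve_theta (M := c * e) (Y := Y) (P := P) (D := D) (ll := ll) (z := z) hE0
    (fun p hp => by
      obtain ⟨h5, h6⟩ := mem_filter.1 hp
      obtain ⟨h7, h8⟩ := mem_filter.1 h5
      refine ⟨fun h9 => ?_, fun h9 => h8 (h9.mul_left c)⟩
      rcases (Nat.Prime.dvd_mul (mem_prm.1 h7).2.2).1 h9 with h | h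
      · exact h8 (h.mul_right v)
      · exact h6 h) hav
    (fun d hd => ⟨(h1 d hd).1, (h1 d hd).2.2.1, (h1 d hd).2.2.2.2⟩) (fun m => (h2 m).1)
    (fun d hd a' ha' => hE d a' (Nat.pos_of_ne_zero (h1 d hd).1.ne_zero)
      (by exact_mod_cast (h1 d hd).2.1) ha')
  refine ⟨_, fun s hs => ?_, le_trans ?_ h4⟩
  · obtain ⟨h5, h6, h7⟩ := mem_filter.1 hs
    obtain ⟨-, h8, h9⟩ := mem_prm.1 h5
    have h10 : e * s ≡ u [MOD v] := (Nat.ModEq.mul_left e h6).trans ha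
    have h11 : c * e * s + 1 ≡ c * u + 1 [MOD c * v] := by
      rw [mul_assoc]
      exact Nat.ModEq.add_right 1 (Nat.ModEq.mul_left' c h10)
    refine ⟨h9, Rsw.mem_rgs.2 ⟨⟨?_, ?_⟩, fun p hp hd => ?_⟩, h11⟩
    · have := Nat.mul_pos hM h9.pos
      omega
    · have := (Nat.mul_le_mul_left (c * e) (by omega : s ≤ Y)).trans (Nat.mul_div_le _ _)
      omega
    · have hpp := (mem_prm.1 hp).2.2
      have k1 : ¬ p ∣ c * e := fun h =>
        hpp.one_lt.ne' (Nat.dvd_one.1 ((Nat.dvd_add_right (h.mul_right s)).1 hd))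
      refine h7 p (mem_filter.2 ⟨mem_filter.2 ⟨hp, fun h => ?_⟩, fun h => k1 (h.mul_left c)⟩) hd
      rcases (Nat.Prime.dvd_mul hpp).1 h with h | h
      · exact k1 (h.mul_right e)
      · have k2 : p ∣ c * u + 1 :=
          (Nat.ModEq.dvd_iff (h11.of_dvd (h.mul_left c)) dvd_rfl).1 hd
        exact hpp.one_lt.ne' (Nat.eq_one_of_dvd_coprimes H.cop' k2 h)
  · have hφ : (1 : ℝ) ≤ v.totient := by exact_mod_cast Nat.totient_pos.2 H.hv
    have k1 : (D.card : ℝ) ≤ (z : ℝ) ^ (4 * b + 10) := by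
      have : D ⊆ Icc 1 (z ^ (4 * b + 10)) := fun d hd => mem_Icc.2
        ⟨Nat.pos_of_ne_zero (h1 d hd).1.ne_zero, by exact_mod_cast (h1 d hd).2.1⟩
      have := card_le_card this
      rw [Nat.card_Icc, Nat.add_sub_cancel] at this
      exact_mod_cast this
    have k2 : (D.card : ℝ) * (z * E) ≤ (z : ℝ) ^ (4 * b + 11) * E := by
      rw [pow_succ (z : ℝ) (4 * b + 10), mul_assoc]
      exact mul_le_mul_of_nonneg_right k1 (by positivity)
    have k3 : Pz c v z ≤ ∏ p ∈ P, (1 - 1 / ((p : ℝ) - 1)) :=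
      prod_le_prod_of_subset_of_le_one hPP
        (fun p hp => by linarith [(g_bounds (pp_three H.even hp)).2.1])
        fun p hp _ => by linarith [(g_bounds (pp_three H.even hp)).1]
    have he0 := Real.exp_pos (-(b : ℝ))
    have he1 : Real.exp (-(b : ℝ)) ≤ 1 := Real.exp_le_one_iff.2 (by simp)
    have k4 := (mul_le_mul_of_nonneg_left k3 (sub_nonneg.2 he1)).trans h3
    have k5 := mul_le_mul_of_nonneg_left k4 (by positivity : 0 ≤ (Y : ℝ) / v.totient)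
    have hM' : (0 : ℝ) < c * e := by exact_mod_cast hM
    have k6 : (N : ℝ) * (1 / (c * e : ℝ)) ≤ Y + 1 := by
      have e1 : N - 1 < c * e * (Y + 1) := Nat.lt_mul_div_succ _ hM
      have e2 : (N : ℝ) ≤ c * e * (Y + 1) := by exact_mod_cast (by omega : N ≤ c * e * (Y + 1))
      rw [mul_one_div, div_le_iff₀ hM']
      linarith
    have k7 : 0 ≤ (1 - Real.exp (-(b : ℝ))) * Pz c v z :=
      mul_nonneg (sub_nonneg.2 he1) (Pz_nonneg H.even v z)
    have k8 : (1 - Real.exp (-(b : ℝ))) * Pz c v z ≤ 1 :=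
      mul_le_one₀ (by linarith) (Pz_nonneg H.even v z) (Pz_le_one H.even v z)
    generalize (1 - Real.exp (-(b : ℝ))) * Pz c v z = A at *
    have k9 : A * N / v.totient * (1 / (c * e : ℝ)) = A / v.totient * (N * (1 / (c * e : ℝ))) := by
      ring
    have k10 := mul_le_mul_of_nonneg_left k6 (by positivity : 0 ≤ A / v.totient)
    have k11 : A / v.totient ≤ 1 := (div_le_self k7 hφ).trans k8
    have k12 : A / v.totient * (Y + 1) = Y / v.totient * A + A / v.totient := by ring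
    linarith

end Vale.Agent.P016Z.Pr.SiftA
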